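import Crest.Agent.X262.Hb.Defs

/-!
# Row 262, road B, Hb (helper61), part 1: places, vanishing, finiteness of supports

* `LP.r_comp`, `LP.ext`, `LP.comp_assoc`, `LP.fac` (`p = (at p.V).comp (hom p.emb)`);
* `Th.Ax.c1_lin`, `pb_c1_res`, `itg_pb`, `zero_of`, `van`;
* `sf V s` : the field generated by the residues of `s`; `fin_alg`, `fin_supp`, `fin_cyc`.
-/

set_option autoImplicit false
set_option linter.unusedSectionVars false
set_option linter.style.haveILetI false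

noncomputable section

namespace Crest.Agent.X262.Hb

open Crest.Agent.X277 Crest.Agent.X277.BD Crest.Agent.X277.Pst Crest.Agent.X277.BD.Cyc
open Crest.Agent.X262.Geo

variable {K E L M : Type} [Field K] [Algebra ℂ K] [Field E] [Algebra ℂ E] [Field L] [Algebra ℂ L]
  [Field M] [Algebra ℂ M]

namespace LP

variable (p : LP K E) (q : LP E L)

@[simp] theorem comp_V : (p.comp q).V = p.cm q.V := rfl

@[simp] theorem at_V (V : RZ ℂ K) : (LP.at V).V = V := rfl

theorem at_toPl (V : RZ ℂ K) : (LP.at V).toPl = plV V := rfl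


@[simp] theorem r_hom (α : K →ₐ[ℂ] E) (x : K) : (hom α).r x = α x := Pl.r_ofHom _ _ x

theorem mem_hom_V (α : K →ₐ[ℂ] E) (x : K) : x ∈ (hom α).V.1 := ValuationSubring.mem_top x

theorem res_hom (α : K →ₐ[ℂ] E) (a : BD ℂ K) : (hom α).res a = pb α a := rfl

theorem r_of_not_mem {x : K} (h : x ∉ p.V.1) : p.r x = 0 := dif_neg h

@[simp] theorem r_comp (x : K) : (p.comp q).r x = q.r (p.r x) := by
  by_cases h : x ∈ (p.comp q).V.1
  · exact Pl.r_eq _ h
  · rw [r_of_not_mem _ h]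
    by_cases h1 : x ∈ p.V.1
    · exact (q.r_of_not_mem fun h2 => h ⟨h1, h2⟩).symm
    · rw [p.r_of_not_mem h1, Pl.r_zero]


theorem mem_iff_r {x : K} : x ∈ p.V.1 ↔ p.r x ≠ 0 ∨ p.r (x + 1) ≠ 0 := by
  refine ⟨fun h => ?_, fun h => ?_⟩
  · by_contra h0
    push Not at h0
    have h1 := Pl.r_add (p := p.toPl) h (one_mem _)
    rw [h0.1, h0.2, Pl.r_one, zero_add] at h1
    exact zero_ne_one h1
  · rcases h with h | h
    · exact RZ.le_one_iff.1 (Pl.r_ne_zero_iff.1 h).le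
    · simpa using sub_mem (RZ.le_one_iff.1 (Pl.r_ne_zero_iff.1 h).le) (one_mem p.V.1)

variable {p} in
theorem ext {p' : LP K E} (h : ∀ x, p.r x = p'.r x) : p = p' := by
  have hV : p.V = p'.V := Subtype.ext (ValuationSubring.ext _ _ fun x => by
    rw [mem_iff_r, mem_iff_r, h, h])
  obtain ⟨⟨V, φ, _, _⟩, _⟩ := p
  obtain ⟨⟨V', φ', _, _⟩, _⟩ := p'
  obtain rfl : V = V' := hV
  obtain rfl : φ = φ' := RingHom.ext fun x => by
    have := h x
    rwa [Pl.r_coe, Pl.r_coe] at this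
  rfl

theorem comp_assoc (t : LP L M) : (p.comp q).comp t = p.comp (q.comp t) := ext fun x => by simp

theorem hom_comp_hom (α : K →ₐ[ℂ] E) (γ : E →ₐ[ℂ] L) : (hom α).comp (hom γ) = hom (γ.comp α) :=
  ext fun x => by simp

theorem comp_id : p.comp (hom (AlgHom.id ℂ E)) = p := ext fun x => by simp

theorem id_comp : (hom (AlgHom.id ℂ K)).comp p = p := ext fun x => by simp

theorem comp_hom_V (α : E →ₐ[ℂ] L) : (p.comp (hom α)).V = p.V :=
  Subtype.ext (ValuationSubring.ext _ _ fun _ => ⟨fun h => h.1, fun h => ⟨h, mem_hom_V α _⟩⟩)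

theorem cm_comp (W : RZ ℂ L) : (p.comp q).cm W = p.cm (q.cm W) :=
  Subtype.ext (ValuationSubring.ext _ _ fun x => by
    simp only [Pl.mem_cm, r_comp, comp_V, and_assoc])

/-- the embedding of the residue field -/
def emb : Rf p.V →ₐ[ℂ] E where
  toRingHom := Ideal.Quotient.lift (IsLocalRing.maximalIdeal p.V.1) p.φ fun x hx =>
    (p.ker x).2 ((ValuationSubring.valuation_lt_one_iff _ x).1 hx)
  commutes' c := (Pl.r_eq _ (p.V.2 c)).symm.trans (p.lnr c)

theorem emb_r (x : K) : p.emb ((plV p.V).r x) = p.r x := by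
  by_cases h : x ∈ p.V.1
  · rw [Pl.r_eq _ h, Pl.r_eq (plV p.V) h]
    rfl
  · rw [p.r_of_not_mem h, show (plV p.V).r x = 0 from (LP.at p.V).r_of_not_mem h, map_zero]

theorem fac : (LP.at p.V).comp (hom p.emb) = p := ext fun x => by
  rw [r_comp, r_hom]
  exact p.emb_r x


theorem res_eq_zero {a : BD ℂ K} (h : ∀ V : RZ ℂ K, V.1 ≤ p.V.1 → a.val V = 1) : p.res a = 0 :=
  ext' fun W => by
    rw [Pl.val_res (g := 1) (h _ le_rfl) (by rw [h _ (Pl.cm_le W), map_one]), Pl.r_one, map_one,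
      val_zero]

theorem res_comp {a : BD ℂ K} (h : a.val (p.cm q.V) = 1) : (p.comp q).res a = q.res (p.res a) := by
  have h1 : a.val p.V = 1 := by
    rw [← val_of_le (Pl.cm_le q.V) (g := 1) (by rw [h, map_one]), map_one]
  have h2 : (p.res a).val q.V = 1 := by
    rw [Pl.val_res (g := 1) h1 (by rw [h, map_one]), Pl.r_one, map_one]
  refine ext' fun W => ?_
  rw [Pl.val_res_gen (p := (p.comp q).toPl) h, r_comp, cm_comp,
    Pl.val_res h2 (Pl.val_res_gen h1 _).symm]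

end LP

theorem deg_of_surjective {α : K →ₐ[ℂ] E} (h : Function.Surjective α) : deg α = 1 := by
  letI := α.toRingHom.toAlgebra
  exact (finrank_eq_one_iff_of_nonzero' (1 : E) one_ne_zero).2 fun w => by
    obtain ⟨c, rfl⟩ := h w
    exact ⟨c, mul_one _⟩

theorem deg_eq_zero [Algebra.EssFiniteType ℂ K] [Algebra.EssFiniteType ℂ E] (α : K →ₐ[ℂ] E)
    (h : dim ℂ E ≠ dim ℂ K) : deg α = 0 :=
  Nat.eq_zero_of_not_pos fun h0 => h ((deg_pos_iff α).1 h0)

instance essFT_adjoin (s : Finset E) :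
    Algebra.EssFiniteType ℂ (IntermediateField.adjoin ℂ (s : Set E)) :=
  IntermediateField.essFiniteType_iff.2 (IntermediateField.fg_adjoin_finset s)

theorem essFT_adjoin' {s : Set E} (hs : s.Finite) :
    Algebra.EssFiniteType ℂ (IntermediateField.adjoin ℂ s) :=
  IntermediateField.essFiniteType_iff.2 (IntermediateField.fg_adjoin_of_finite hs)

/-- the field generated by the residues of `s` -/
def sf (V : RZ ℂ K) (s : Finset K) : IntermediateField ℂ (Rf V) :=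
  IntermediateField.adjoin ℂ ((plV V).r '' s)

instance (V : RZ ℂ K) (s : Finset K) : Algebra.EssFiniteType ℂ (sf V s) :=
  essFT_adjoin' (s.finite_toSet.image _)

theorem r_mem_sf (V : RZ ℂ K) {s : Finset K} {f : K} (hf : f ∈ s) : (plV V).r f ∈ sf V s :=
  IntermediateField.subset_adjoin _ _ ⟨f, hf, rfl⟩


section Fin

variable [Algebra.EssFiniteType ℂ K]

theorem exists_mod (s : Finset K) : ∃ H : BD ℂ K, Mod.IsMod H ∧
    ∀ V : RZ ℂ K, ∀ f ∈ s, f ∈ V.1 → f ∈ loc H V := by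
  classical
  obtain ⟨M, -⟩ := exists_mdl ([] : List (BD ℂ K))
  have h1 : ∀ t : Finset K, Free (∑ f ∈ t, mx ℂ {1, f}) := fun t => Free.sum _ fun _ _ => free_mx _
  refine ⟨∑ f ∈ s, mx ℂ {1, f} + M.H, add_comm M.H _ ▸ (Mod.isMod_mdl M).add (h1 s),
    fun V f hf hV => ?_⟩
  rw [← Finset.add_sum_erase _ _ hf, add_assoc]
  refine loc_le_add ((h1 _).add M.free_H) V ⟨1, 1, ?_, ?_, ?_⟩
  · simpa using mem_Sec_mx (k := ℂ) (s := {1, f}) (g := 1) (by simp)
  · rw [one_nsmul, val_mx ⟨1, by simp, one_ne_zero⟩]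
    simpa using RZ.le_one_iff.2 hV
  · simpa using mem_Sec_mx (k := ℂ) (s := {1, f}) (g := f) (by simp)

theorem prm_of_sf {H : BD ℂ K} {s : Finset K} {V : RZ ℂ K} (hV : Dvs V)
    (h : ∀ f ∈ s, f ∈ V.1 → f ∈ loc H V) (hd : dim ℂ (Rf V) = dim ℂ (sf V s)) : Prm H V := by
  have := essFT_Rf hV
  have h0 : 0 < deg (sf V s).val := (deg_pos_iff _).2 hd
  have h1 : Module.Finite (sf V s) (Rf V) := Module.finite_of_finrank_pos h0
  have h2 : Algebra.IsAlgebraic (Algebra.adjoin ℂ ((plV V).r '' s)) (Rf V) :=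
    IntermediateField.isAlgebraic_adjoin_iff_top.1
      (inferInstanceAs (Algebra.IsAlgebraic (sf V s) (Rf V)))
  obtain ⟨t, ht, hb⟩ := exists_isTranscendenceBasis_subset (R := ℂ) ((plV V).r '' s)
  have h3 := hb.cardinalMk_eq_trdeg
  rw [trdeg_eq_dim, show dim ℂ (Rf V) = Gj.dm ℂ K - 1 by rw [dm_eq, dim_Rf' hV]; rfl] at h3
  obtain ⟨e⟩ := Cardinal.mk_eq_nat_iff.1 h3
  choose y hy h4 using fun i => ht (e.symm i).2
  have h5 : ∀ i, y i ∈ V.1 := fun i => RZ.le_one_iff.1 (Pl.r_ne_zero_iff (p := plV V).1 (by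
    rw [h4]
    exact hb.1.ne_zero _)).le
  refine ⟨hV.ne_top, y, fun i => h _ (hy i) (h5 i), (resInd_iff (lnr_plV V) h5).2 ?_⟩
  simp only [h4]
  exact hb.1.comp _ e.symm.injective

/-- only finitely many components of `a` are seen by the residues of `s` -/
theorem fin_alg (a : BD ℂ K) (s : Finset K) :
    {V : RZ ℂ K | Dvs V ∧ od V a ≠ 0 ∧ dim ℂ (Rf V) = dim ℂ (sf V s)}.Finite := by
  obtain ⟨H, h1, h2⟩ := exists_mod s
  exact (fin_od h1 a).subset fun V hV => ⟨prm_of_sf hV.1 (h2 V) hV.2.2, hV.2.1⟩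

end Fin

namespace Th.Ax

variable {B : Th} (hB : B.Ax) {a b : BD ℂ K}
include hB

theorem c1_lin (h : Lin a b) : B.c1 a = B.c1 b := by
  obtain ⟨f, -, rfl⟩ := h
  rw [map_add, hB.c1_pr, add_zero]

theorem pb_c1_res (p : LP K E) (h : a.val p.V = 1) : B.pb p (B.c1 a) = B.c1 (p.res a) := by
  rw [hB.pb_c1, hB.c1_lin (Pl.lin_rs_res h)]

theorem pb_c1_gen (p : LP K E) {g : K} (h : p.V.v g = a.val p.V) :
    B.pb p (B.c1 a) = B.c1 (p.res (a - pr ℂ g)) := by
  rw [hB.pb_c1, hB.c1_lin (Pl.lin_rs h)]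

theorem pb_c1_hom (α : K →ₐ[ℂ] E) (a : BD ℂ K) : B.pb (LP.hom α) (B.c1 a) = B.c1 (BD.pb α a) :=
  hB.pb_c1_res _ (val_top a)

theorem pb_c1_eq_zero (p : LP K E) {g : K}
    (h : ∀ V : RZ ℂ K, V.1 ≤ p.V.1 → V.v g = a.val V) : B.pb p (B.c1 a) = 0 := by
  rw [hB.pb_c1_gen p (h _ le_rfl), p.res_eq_zero, map_zero]
  intro V hV
  rw [val_sub, val_pr (ne_of_val (h V hV)), h V hV, div_self (val_ne _ _)]

theorem pb_hom_hom (α : K →ₐ[ℂ] E) (γ : E →ₐ[ℂ] L) (x : B.H K) :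
    B.pb (LP.hom γ) (B.pb (LP.hom α) x) = B.pb (LP.hom (γ.comp α)) x := by
  rw [← hB.pb_comp, LP.hom_comp_hom]


/-- a class which comes from a field of smaller dimension has integral zero -/
theorem van [Algebra.EssFiniteType ℂ K] [Algebra.EssFiniteType ℂ E] (α : K →ₐ[ℂ] E)
    (h : dim ℂ E ≠ dim ℂ K) (x : B.H K) : B.itg E (B.pb (LP.hom α) x) = 0 := by
  rw [hB.deg, deg_eq_zero α h, Nat.cast_zero, zero_mul]

theorem itg_equiv [Algebra.EssFiniteType ℂ K] [Algebra.EssFiniteType ℂ E] {α : K →ₐ[ℂ] E}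
    (h : Function.Surjective α) (x : B.H K) : B.itg E (B.pb (LP.hom α) x) = B.itg K x := by
  rw [hB.deg, deg_of_surjective h, Nat.cast_one, one_mul]


variable [Algebra.EssFiniteType ℂ K]

/-- a class which vanishes on all components of `a` is killed by `c1 a` -/
theorem zero_of {x : B.H K} (h : ∀ V, Dvs V → od V a ≠ 0 → B.pb (LP.at V) x = 0) :
    B.c1 a * x = 0 :=
  hB.pd _ fun y => by
    rw [mul_assoc, hB.cyc]
    refine finsum_mem_eq_zero_of_forall_eq_zero (s := {V | Dvs V}) fun V hV => ?_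
    by_cases h0 : od V a = 0
    · rw [h0, Int.cast_zero, zero_mul]
    · rw [map_mul, h V hV h0, zero_mul, map_zero, mul_zero]

theorem mul_congr {x y : B.H K}
    (h : ∀ V, Dvs V → od V a ≠ 0 → B.pb (LP.at V) x = B.pb (LP.at V) y) :
    B.c1 a * x = B.c1 a * y := by
  rw [← sub_eq_zero, ← mul_sub]
  exact hB.zero_of fun V hV h0 => by rw [map_sub, h V hV h0, sub_self]

/-- finite support for families which are defined over the residues of a finite set -/
theorem fin_supp (a : BD ℂ K) (s : Finset K) (Ψ : ∀ V : RZ ℂ K, B.H (Rf V))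
    (h : ∀ V, Dvs V → od V a ≠ 0 → ∃ y, Ψ V = B.pb (LP.hom (sf V s).val) y) :
    {V : RZ ℂ K | Dvs V ∧ (od V a : ℂ) * B.itg (Rf V) (Ψ V) ≠ 0}.Finite :=
  (fin_alg a s).subset fun V ⟨hV, h0⟩ => by
    have h1 : od V a ≠ 0 := fun e => h0 (by rw [e, Int.cast_zero, zero_mul])
    refine ⟨hV, h1, by_contra fun h2 => h0 ?_⟩
    have := essFT_Rf hV
    obtain ⟨y, hy⟩ := h V hV h1
    rw [hy, hB.van _ h2, mul_zero]



omit hB [Algebra.EssFiniteType ℂ K] in
theorem _root_.Crest.Agent.X262.Hb.finsum_dvs {f : RZ ℂ K → ℂ} {T : Finset (RZ ℂ K)}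
    (h1 : ∀ V ∈ T, Dvs V) (h2 : ∀ V, Dvs V → f V ≠ 0 → V ∈ T) :
    ∑ᶠ (V : RZ ℂ K) (_ : Dvs V), f V = ∑ V ∈ T, f V :=
  finsum_mem_eq_sum_of_inter_support_eq (s := {V | Dvs V}) f (Set.ext fun V =>
    ⟨fun h => ⟨h2 V h.1 h.2, h.2⟩, fun h => ⟨h1 V h.1, h.2⟩⟩)


omit [Algebra.EssFiniteType ℂ K] in
theorem ty_pow {p q : ℕ} {x : B.H K} (hx : x ∈ B.ty K p q) (n : ℕ) :
    x ^ n ∈ B.ty K (n * p) (n * q) := by
  induction n with
  | zero => simpa using hB.ty_one
  | succ n ih => simpa only [pow_succ, Nat.succ_mul] using hB.ty_mul ih hx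

theorem itg_one_of_dim (h : dim ℂ K = 0) : B.itg K 1 = 1 := by
  have h1 : dim ℂ ℂ = 0 := by
    have := trdeg_eq_dim (k := ℂ) (F := ℂ)
    rw [trdeg_eq_zero] at this
    exact_mod_cast this.symm
  have h2 : Algebra.IsAlgebraic ℂ K := trdeg_eq_zero_iff.1 (by rw [trdeg_eq_dim, h, Nat.cast_zero])
  have h3 := hB.itg_equiv (α := Algebra.ofId ℂ K)
    (IsAlgClosed.algebraMap_bijective_of_isIntegral (k := ℂ) (K := K)).2 1
  rwa [map_one, hB.itg_one] at h3

end Th.Ax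

end Crest.Agent.X262.Hb
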