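import Crest.Agent.X262.Hb.Bas
import Crest.Agent.X262.Hb.Sat0

/-!
# Row 262, road B, Hb (helper61), part 3: the Chern polynomial

independence of the flag (`cp2_eq`), towers, isometries (`cp2_map`), Whitney formula, gauge, twist,
sub-lines, types, degrees.
-/

set_option autoImplicit false
set_option linter.unusedSectionVars false

noncomputable section

namespace Crest.Agent.X262.Hb

open Crest.Agent.X277 Crest.Agent.X277.BD Crest.Agent.X277.Pst Crest.Agent.X277.BD.Cyc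
open Crest.Agent.X262.Geo Polynomial

variable {K : Type} [Field K] [Algebra ℂ K] {P Q : Type} [Fintype P] [Fintype Q]
  {a : P → BD ℂ K} {a' : Q → BD ℂ K} {V : RZ ℂ K} {x y : P → K} {W U T : Submodule K (P → K)}
  {W' : Submodule K (Q → K)} {l m : List (P → K)} {B : Th}

@[simp] theorem Th.cl_nil : B.cl ([] : List (BD ℂ K)) = 1 := rfl

@[simp] theorem Th.cl_cons (b : BD ℂ K) (t : List (BD ℂ K)) :
    B.cl (b :: t) = (C (B.c1 b) - X) * B.cl t := rfl

theorem Th.cl_append (s t : List (BD ℂ K)) : B.cl (s ++ t) = B.cl s * B.cl t := by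
  simp [Th.cl]

theorem length_rts (a : P → BD ℂ K) (W : Submodule K (P → K)) (l : List (P → K)) :
    (rts a W l).length = l.length := by
  induction l generalizing W with
  | nil => rfl
  | cons x l ih => simp [rts, ih]

theorem Flag.rts_append (h : Flag W l U) (m : List (P → K)) :
    rts a W (l ++ m) = rts a W l ++ rts a U m := by
  induction h with
  | nil => rfl
  | cons _ _ ih => simp [rts, ih]

theorem sup_span_eq (hx : x ∉ W) (hy : y ∉ W) (h : y ∈ W ⊔ K ∙ x) : W ⊔ K ∙ y = W ⊔ K ∙ x :=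
  Submodule.eq_of_le_of_finrank_eq (sup_span_le le_sup_left h)
    (by rw [Flag.finrank_sup hx, Flag.finrank_sup hy])

theorem ds_lt_of_le {V' : RZ ℂ K} (h : V'.1 ≤ V.1) (hy : y ∉ W) (hx : nm a V x < ds a V W y) :
    nm a V' x < ds a V' W y := by
  by_cases h0 : x = 0
  · rw [h0, nm_zero]
    exact ds_pos hy
  rw [← val_dst hy, ← val_dst_bot h0] at hx ⊢
  exact lt_of_not_ge fun h1 => hx.not_ge (val_le_of_le h h1)

/-! ### isometric maps -/

/-- `φ` induces an isometric embedding `U / W → (Q → K) / W'` -/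
def Isom (a : P → BD ℂ K) (a' : Q → BD ℂ K) (φ : (P → K) →ₗ[K] (Q → K))
    (W U : Submodule K (P → K)) (W' : Submodule K (Q → K)) : Prop :=
  ∀ V, ∀ x ∈ U, ds a' V W' (φ x) = ds a V W x

variable {φ : (P → K) →ₗ[K] (Q → K)}

theorem Isom.mem_iff (h : Isom a a' φ W U W') (hx : x ∈ U) : φ x ∈ W' ↔ x ∈ W := by
  rw [← ds_eq_zero (a := a') (V := RZ.top ℂ K), h _ x hx, ds_eq_zero]

theorem Isom.step (h : Isom a a' φ W U W') (hx : x ∈ U) :
    Isom a a' φ (W ⊔ K ∙ x) U (W' ⊔ K ∙ φ x) := fun V y hy => by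
  have h1 : ∀ c : K, ds a' V W' (φ y - c • φ x) = ds a V W (y - c • x) := fun c => by
    rw [← h V _ (sub_mem hy (U.smul_mem c hx)), map_sub, map_smul]
  apply le_antisymm
  · obtain ⟨c, hc⟩ := exists_ds_sup a V W x y
    rw [← hc, ← h1]
    exact ds_sup_le c
  · obtain ⟨c, hc⟩ := exists_ds_sup a' V W' (φ x) (φ y)
    rw [← hc, h1]
    exact ds_sup_le c

theorem Isom.flag (hl : Flag W l T) (hT : T ≤ U) (h : Isom a a' φ W U W') :
    Flag W' (l.map φ) (W' ⊔ T.map φ) ∧ rts a' W' (l.map φ) = rts a W l := by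
  induction hl generalizing W' with
  | nil W =>
    have h1 : W.map φ ≤ W' := by
      rintro _ ⟨x, hx, rfl⟩
      exact (h.mem_iff (hT hx)).2 hx
    rw [sup_eq_left.2 h1]
    exact ⟨.nil _, rfl⟩
  | @cons W T x l hx hl ih =>
    have h0 : x ∈ T := (Flag.cons hx hl).mem_cons
    have h1 : φ x ∉ W' := (h.mem_iff (hT h0)).not.2 hx
    obtain ⟨h2, h3⟩ := ih hT (h.step (hT h0))
    have h4 : K ∙ φ x ≤ T.map φ :=
      (Submodule.span_singleton_le_iff_mem _ _).2 (Submodule.mem_map_of_mem h0)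
    rw [sup_assoc, sup_eq_right.2 h4] at h2
    refine ⟨.cons h1 h2, ?_⟩
    rw [List.map_cons, rts, rts, h3]
    congr 2
    exact ext' fun V => by rw [val_dst h1, val_dst hx, h V x (hT h0)]

/-- `φ` maps the lattice of `U` onto the lattice of its image -/
structure Ont (a : P → BD ℂ K) (a' : Q → BD ℂ K) (φ : (P → K) →ₗ[K] (Q → K))
    (U : Submodule K (P → K)) : Prop where
  le : ∀ V, ∀ x ∈ U, nm a' V (φ x) ≤ nm a V x
  sur : ∀ V, ∀ x ∈ U, ∃ z ∈ U, φ z = φ x ∧ nm a V z ≤ nm a' V (φ x)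

theorem Ont.isom (h : Ont a a' φ U) : Isom a a' φ (U ⊓ LinearMap.ker φ) U ⊥ := fun V x hx => by
  rw [ds_bot]
  refine le_antisymm (le_ds.2 fun w hw => ?_) ?_
  · have := h.le V _ (sub_mem hx hw.1)
    rwa [map_sub, LinearMap.mem_ker.1 hw.2, sub_zero] at this
  · obtain ⟨z, hz, h1, h2⟩ := h.sur V x hx
    exact ds_le_iff.2 ⟨x - z, ⟨sub_mem hx hz, by simp [h1]⟩, by simpa using h2⟩

theorem nm_le_of_one {φ : (P → K) →ₗ[K] (Q → K)}
    (h : ∀ x ∈ U, nm a V x ≤ 1 → nm a' V (φ x) ≤ 1) (hx : x ∈ U) : nm a' V (φ x) ≤ nm a V x := by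
  by_cases h0 : x = 0
  · simp [h0]
  obtain ⟨c, hc⟩ := V.exists_v (nm a V x)
  have h1 := h (c⁻¹ • x) (U.smul_mem _ hx) (by
    rw [nm_smul, map_inv₀, hc, inv_mul_cancel₀ (nm_pos h0).ne'])
  rwa [map_smul, nm_smul, map_inv₀, hc, inv_mul_le_iff₀ (nm_pos h0), mul_one] at h1

theorem Ont.of_one (h1 : ∀ V, ∀ x ∈ U, nm a V x ≤ 1 → nm a' V (φ x) ≤ 1)
    (h2 : ∀ V, ∀ x ∈ U, nm a' V (φ x) ≤ 1 → ∃ z ∈ U, φ z = φ x ∧ nm a V z ≤ 1) : Ont a a' φ U := by
  refine ⟨fun V x hx => nm_le_of_one (h1 V) hx, fun V x hx => ?_⟩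
  by_cases h0 : φ x = 0
  · exact ⟨0, zero_mem _, by simp [h0], by simp⟩
  obtain ⟨c, hc⟩ := V.exists_v (nm a' V (φ x))
  have hc0 : c ≠ 0 := RZ.ne_zero_iff.1 (hc ▸ (nm_pos h0).ne')
  obtain ⟨z, hz, h3, h4⟩ := h2 V (c⁻¹ • x) (U.smul_mem _ hx) (by
    rw [map_smul, nm_smul, map_inv₀, hc, inv_mul_cancel₀ (nm_pos h0).ne'])
  refine ⟨c • z, U.smul_mem _ hz, by rw [map_smul, h3, map_smul, smul_inv_smul₀ hc0], ?_⟩
  rw [nm_smul, hc]
  exact mul_le_of_le_one_right' h4

theorem nm_add_tw (t : BD ℂ K) : nm (fun i => a i + t) V x = nm a V x / t.val V := by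
  have h : ∀ γ, nm (fun i => a i + t) V x ≤ γ ↔ nm a V x / t.val V ≤ γ := fun γ => by
    simp only [nm_le, div_le_iff₀ (val_pos t V), val_add, mul_assoc, mul_comm (t.val V)]
  exact le_antisymm ((h _).2 le_rfl) ((h _).1 le_rfl)

theorem ds_add_tw (t : BD ℂ K) : ds (fun i => a i + t) V W x = ds a V W x / t.val V := by
  have h : ∀ γ, ds (fun i => a i + t) V W x ≤ γ ↔ ds a V W x / t.val V ≤ γ := fun γ => by
    simp only [ds_le_iff, nm_add_tw, div_le_iff₀ (val_pos t V)]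
  exact le_antisymm ((h _).2 le_rfl) ((h _).1 le_rfl)

theorem Flag.rts_tw (h : Flag W l U) (t : BD ℂ K) :
    rts (fun i => a i + t) W l = (rts a W l).map (· + t) := by
  induction h with
  | nil => rfl
  | cons hx _ ih =>
    rw [rts, rts, List.map_cons, ih]
    congr 1
    exact ext' fun V => by
      rw [val_add, val_neg, val_neg, val_dst hx, val_dst hx, ds_add_tw, inv_div, div_eq_inv_mul]

theorem Th.cl_tw (s : List (BD ℂ K)) (t : BD ℂ K) :
    B.cl (s.map (· + t)) = (B.cl s).comp (X - C (B.c1 t)) := by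
  induction s with
  | nil => simp
  | cons b s ih =>
    rw [List.map_cons, Th.cl_cons, Th.cl_cons, ih, mul_comp, sub_comp, C_comp, X_comp, map_add,
      C_add]
    ring

theorem Th.coeff_cl_gt (s : List (BD ℂ K)) {n : ℕ} (h : s.length < n) : (B.cl s).coeff n = 0 := by
  induction s generalizing n with
  | nil => rw [Th.cl_nil, coeff_one, if_neg (by simpa using h.ne')]
  | cons b s ih =>
    obtain ⟨n, rfl⟩ := Nat.exists_eq_succ_of_ne_zero (Nat.ne_zero_of_lt h)
    rw [List.length_cons] at h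
    rw [Th.cl_cons, sub_mul, coeff_sub, coeff_C_mul, coeff_X_mul, ih (by omega), ih (by omega)]
    simp

theorem Th.coeff_cl_top (s : List (BD ℂ K)) : (B.cl s).coeff s.length = (-1) ^ s.length := by
  induction s with
  | nil => simp
  | cons b s ih =>
    rw [List.length_cons, Th.cl_cons, sub_mul, coeff_sub, coeff_C_mul, coeff_X_mul, ih,
      Th.coeff_cl_gt s (Nat.lt_succ_self _)]
    ring




theorem coeff_cq (a : P → BD ℂ K) (U : Submodule K (P → K)) (n : ℕ) :
    (B.cq a U).coeff n = -(B.cp a U).coeff (n + 1) := by rw [Th.cq, coeff_neg, coeff_divX]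

namespace Th.Ax

variable (hB : B.Ax)
include hB

theorem c1_dst (hx : x ∉ W) (hy : y ∉ W) (h : y ∈ W ⊔ K ∙ x) :
    B.c1 (dst a W y) = B.c1 (dst a W x) := by
  obtain ⟨u, hu, z, hz, rfl⟩ := Submodule.mem_sup.1 h
  obtain ⟨c, rfl⟩ := Submodule.mem_span_singleton.1 hz
  have hc : c ≠ 0 := fun e => hy (by simpa [e] using hu)
  rw [add_comm, dst_smul_add hx hc hu, map_add, hB.c1_pr, add_zero]

theorem ty_coeff_cl (s : List (BD ℂ K)) {i j : ℕ} (h : i + j = s.length) :
    (B.cl s).coeff i ∈ B.ty K j j := by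
  induction s generalizing i j with
  | nil =>
    obtain ⟨rfl, rfl⟩ : i = 0 ∧ j = 0 := by simpa using h
    simpa using hB.ty_one
  | cons b s ih =>
    rw [List.length_cons] at h
    rw [Th.cl_cons, sub_mul, coeff_sub, coeff_C_mul]
    refine sub_mem ?_ ?_
    · rcases j with _ | j
      · rw [Th.coeff_cl_gt s (by omega), mul_zero]
        exact zero_mem _
      · rw [add_comm j 1]
        exact hB.ty_mul (hB.ty_c1 b) (ih (by omega))
    · rcases i with _ | i
      · simp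
      · rw [coeff_X_mul]
        exact ih (by omega)

theorem ty_eval {f : (B.H K)[X]} {n : ℕ} (h1 : ∀ i j, i + j = n → f.coeff i ∈ B.ty K j j)
    (h2 : ∀ i, n < i → f.coeff i = 0) {d : B.H K} (hd : d ∈ B.ty K 1 1) :
    f.eval d ∈ B.ty K n n := by
  rw [eval_eq_sum_range' (n := n + 1)
    (Nat.lt_succ_of_le (natDegree_le_iff_coeff_eq_zero.2 h2))]
  refine sum_mem fun i hi => ?_
  have h3 : i ≤ n := Nat.lt_succ_iff.1 (Finset.mem_range.1 hi)
  have h4 := hB.ty_mul (h1 i (n - i) (by omega)) (hB.ty_pow hd i)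
  rwa [mul_one, Nat.sub_add_cancel h3] at h4

variable [Algebra.EssFiniteType ℂ K]

theorem swap (hx : x ∉ W) (h : y ∉ W ⊔ K ∙ x) :
    (C (B.c1 (-dst a W x)) - X) * (C (B.c1 (-dst a (W ⊔ K ∙ x) y)) - X) =
      (C (B.c1 (-dst a W y)) - X) * (C (B.c1 (-dst a (W ⊔ K ∙ y) x)) - X) := by
  have hy : y ∉ W := fun e => h (Submodule.mem_sup_left e)
  have h1 := congrArg B.c1 (dst_swap (a := a) hx h)
  have h2 : B.c1 (dst a W y - dst a (W ⊔ K ∙ x) y) * B.c1 (dst a W y - dst a W x) = 0 := by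
    refine hB.zero_of fun V hV h0 => ?_
    rw [map_sub, sub_ne_zero, Ne, od_eq_iff hV, val_dst hy, val_dst h] at h0
    have h3 := lt_of_le_of_ne (ds_mono (a := a) (V := V) (x := y) (le_sup_left (b := K ∙ x)))
      (Ne.symm h0)
    obtain ⟨c, hc⟩ := exists_ds_sup a V W x y
    obtain ⟨w, hw, h4⟩ := exists_eq_ds a V W (y - c • x)
    rw [← hc, ← h4] at h3
    refine hB.pb_c1_eq_zero _ (g := c) fun V' hV' => ?_
    have h5 := ds_eq_of_lt (a := a) (V := V') (W := W) (x := y) (y := c • x)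
      ((ds_le hw).trans_lt (ds_lt_of_le hV' hy h3))
    rw [val_sub, val_dst hy, val_dst hx, ← h5, ds_smul, mul_div_cancel_right₀ _ (ds_pos hx).ne']
  simp only [map_add, map_sub] at h1 h2
  have h3 := congrArg C h1
  have h4 := congrArg C h2
  simp only [map_add, map_sub, map_mul, map_zero, map_neg] at h3 h4 ⊢
  linear_combination (X + C (B.c1 (dst a W y))) * h3 + h4

theorem cl_rts_eq (hl : Flag W l U) (hm : Flag W m U) : B.cl (rts a W l) = B.cl (rts a W m) := by
  induction hn : l.length generalizing W l m with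
  | zero =>
    have h1 := hl.finrank
    rw [hm.finrank, hn] at h1
    rw [List.length_eq_zero_iff.1 hn, List.length_eq_zero_iff.1 (show m.length = 0 by omega)]
  | succ n ih =>
    have h1 := hl.finrank
    rw [hm.finrank, hn] at h1
    cases hl with
    | nil => simp at hn
    | @cons _ _ x l hx hl =>
    cases hm with
    | nil => simp at h1
    | @cons _ _ y m hy hm =>
    simp only [List.length_cons, add_left_inj, add_right_inj] at hn h1
    simp only [rts, Th.cl_cons]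
    by_cases h : y ∈ W ⊔ K ∙ x
    · rw [sup_span_eq hx hy h] at hm ⊢
      rw [ih hl hm hn, map_neg, map_neg B.c1, hB.c1_dst hx hy h]
    obtain ⟨t, ht⟩ := exists_flag (sup_span_le hl.le (Flag.cons hy hm).mem_cons)
    have e : (W ⊔ K ∙ y) ⊔ K ∙ x = (W ⊔ K ∙ x) ⊔ K ∙ y := sup_right_comm _ _ _
    rw [ih hl (.cons h ht) hn, ih hm (.cons (not_mem_sup_symm hx h) (e ▸ ht)) h1]
    simp only [rts, Th.cl_cons]
    rw [← mul_assoc, ← mul_assoc, hB.swap hx h, e]

/-- the Chern polynomial can be computed with any flag -/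
theorem cp2_eq (hl : Flag W l U) : B.cp2 a W U = B.cl (rts a W l) := by
  have h : ∃ l, Flag W l U := ⟨l, hl⟩
  rw [Th.cp2, dif_pos h]
  exact hB.cl_rts_eq h.choose_spec hl

theorem cp2_self (W : Submodule K (P → K)) : B.cp2 a W W = 1 := hB.cp2_eq (.nil W)

theorem cp_bot : B.cp a ⊥ = 1 := hB.cp2_self ⊥

theorem cp2_tower (h1 : W ≤ T) (h2 : T ≤ U) : B.cp2 a W U = B.cp2 a W T * B.cp2 a T U := by
  obtain ⟨l, hl⟩ := exists_flag h1
  obtain ⟨m, hm⟩ := exists_flag h2
  rw [hB.cp2_eq (hl.append hm), hB.cp2_eq hl, hB.cp2_eq hm, hl.rts_append, Th.cl_append]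

theorem cp_tower (h : W ≤ U) : B.cp a U = B.cp a W * B.cp2 a W U := hB.cp2_tower bot_le h

theorem cp2_line (hx : x ∉ W) : B.cp2 a W (W ⊔ K ∙ x) = C (B.c1 (-dst a W x)) - X := by
  rw [hB.cp2_eq (.cons hx (.nil _))]
  simp [rts]

theorem cp_line (hx : x ≠ 0) : B.cp a (K ∙ x) = C (B.c1 (-dst a ⊥ x)) - X := by
  rw [← hB.cp2_line (by simpa using hx), bot_sup_eq, Th.cp]

/-- the class of a saturated sub-line is a root -/
theorem eval_cp2_line (h : W ≤ U) (hU : x ∈ U) (hx : x ∉ W) :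
    (B.cp2 a W U).eval (B.c1 (-dst a W x)) = 0 := by
  rw [hB.cp2_tower le_sup_left (sup_span_le h hU), hB.cp2_line hx]
  simp

theorem eval_cp_line (hU : x ∈ U) (hx : x ≠ 0) : (B.cp a U).eval (B.c1 (-dst a ⊥ x)) = 0 :=
  hB.eval_cp2_line bot_le hU (by simpa using hx)

theorem cp2_map (hW : W ≤ U) (h : Isom a a' φ W U W') :
    B.cp2 a' W' (W' ⊔ U.map φ) = B.cp2 a W U := by
  obtain ⟨l, hl⟩ := exists_flag hW
  obtain ⟨h1, h2⟩ := h.flag hl le_rfl
  rw [hB.cp2_eq h1, hB.cp2_eq hl, h2]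

theorem cp2_ont (h : Ont a a' φ U) : B.cp2 a (U ⊓ LinearMap.ker φ) U = B.cp a' (U.map φ) := by
  rw [← hB.cp2_map inf_le_left h.isom, bot_sup_eq, Th.cp]

/-- **Whitney formula** -/
theorem cp_whitney (h : Ont a a' φ U) :
    B.cp a U = B.cp a (U ⊓ LinearMap.ker φ) * B.cp a' (U.map φ) := by
  rw [hB.cp_tower (inf_le_left (b := LinearMap.ker φ)), hB.cp2_ont h]

/-- isometric maps preserve the Chern polynomial -/
theorem cp_iso (h : ∀ V, ∀ x ∈ U, nm a' V (φ x) = nm a V x) : B.cp a' (U.map φ) = B.cp a U := by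
  have := hB.cp2_map (φ := φ) (a := a) (a' := a') (W' := ⊥) (bot_le (a := U))
    fun V x hx => by rw [ds_bot, ds_bot, h V x hx]
  rwa [bot_sup_eq] at this

theorem cp2_iso (hW : W ≤ U) (h : ∀ V, ∀ x ∈ U, nm a' V (φ x) = nm a V x) :
    B.cp2 a' (W.map φ) (U.map φ) = B.cp2 a W U := by
  have := hB.cp2_map (φ := φ) (a := a) (a' := a') (W' := W.map φ) hW fun V x hx => by
    refine le_antisymm (le_ds.2 fun w hw => ?_) (le_ds.2 ?_)
    · rw [← h V _ (sub_mem hx (hW hw)), map_sub]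
      exact ds_le (Submodule.mem_map_of_mem hw)
    · rintro _ ⟨w, hw, rfl⟩
      rw [← map_sub, h V _ (sub_mem hx (hW hw))]
      exact ds_le hw
  rwa [sup_eq_right.2 (Submodule.map_mono hW)] at this

/-- twisting by a line bundle -/
theorem cp2_tw (hW : W ≤ U) (t : BD ℂ K) :
    B.cp2 (fun i => a i + t) W U = (B.cp2 a W U).comp (X - C (B.c1 t)) := by
  obtain ⟨l, hl⟩ := exists_flag hW
  rw [hB.cp2_eq hl, hB.cp2_eq hl, hl.rts_tw, Th.cl_tw]


theorem exists_cl (hW : W ≤ U) : ∃ s : List (BD ℂ K),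
    Module.finrank K U = Module.finrank K W + s.length ∧ B.cp2 a W U = B.cl s := by
  obtain ⟨l, hl⟩ := exists_flag hW
  exact ⟨rts a W l, by rw [length_rts, hl.finrank], hB.cp2_eq hl⟩

variable {r : ℕ}

theorem coeff_cp2_gt (hW : W ≤ U) (hr : Module.finrank K U = Module.finrank K W + r) {n : ℕ}
    (h : r < n) : (B.cp2 a W U).coeff n = 0 := by
  obtain ⟨s, h1, h2⟩ := hB.exists_cl (a := a) hW
  rw [h2, Th.coeff_cl_gt s (by omega)]

theorem coeff_cp2_top (hW : W ≤ U) (hr : Module.finrank K U = Module.finrank K W + r) :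
    (B.cp2 a W U).coeff r = (-1) ^ r := by
  obtain ⟨s, h1, h2⟩ := hB.exists_cl (a := a) hW
  obtain rfl : r = s.length := by omega
  rw [h2, Th.coeff_cl_top]

theorem ty_coeff_cp2 (hW : W ≤ U) (hr : Module.finrank K U = Module.finrank K W + r) {i j : ℕ}
    (h : i + j = r) : (B.cp2 a W U).coeff i ∈ B.ty K j j := by
  obtain ⟨s, h1, h2⟩ := hB.exists_cl (a := a) hW
  rw [h2]
  exact hB.ty_coeff_cl s (by omega)


theorem coeff_cp_gt (hr : Module.finrank K U = r) {n : ℕ} (h : r < n) : (B.cp a U).coeff n = 0 :=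
  hB.coeff_cp2_gt bot_le (by simpa using hr) h

theorem coeff_cp_top (hr : Module.finrank K U = r) : (B.cp a U).coeff r = (-1) ^ r :=
  hB.coeff_cp2_top bot_le (by simpa using hr)

theorem ty_coeff_cp (hr : Module.finrank K U = r) {i j : ℕ} (h : i + j = r) :
    (B.cp a U).coeff i ∈ B.ty K j j := hB.ty_coeff_cp2 bot_le (by simpa using hr) h


theorem coeff_cq_top (hr : Module.finrank K U = r + 1) : (B.cq a U).coeff r = (-1) ^ r := by
  rw [coeff_cq, hB.coeff_cp_top hr, pow_succ, mul_neg_one, neg_neg]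

theorem coeff_cq_gt (hr : Module.finrank K U = r + 1) {n : ℕ} (h : r < n) :
    (B.cq a U).coeff n = 0 := by rw [coeff_cq, hB.coeff_cp_gt hr (by omega), neg_zero]

theorem ty_coeff_cq (hr : Module.finrank K U = r + 1) {i j : ℕ} (h : i + j = r) :
    (B.cq a U).coeff i ∈ B.ty K j j := by
  rw [coeff_cq]
  exact neg_mem (hB.ty_coeff_cp hr (by omega))

theorem ty_eval_cq (hr : Module.finrank K U = r + 1) {d : B.H K} (hd : d ∈ B.ty K 1 1) :
    (B.cq a U).eval d ∈ B.ty K r r :=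
  hB.ty_eval (fun _ _ h => hB.ty_coeff_cq hr h) (fun _ h => hB.coeff_cq_gt hr h) hd

theorem cq_bot : B.cq a ⊥ = 0 := by rw [Th.cq, hB.cp_bot, divX_one, neg_zero]

end Th.Ax

end Crest.Agent.X262.Hb
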