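import Crest.Agent.X262.Hb.Sat1

/-!
# Row 262, road B, Hb (helper61), part 4: reduction along places, gauge, sums, Nakayama
-/

set_option autoImplicit false
set_option linter.unusedSectionVars false

noncomputable section

namespace Crest.Agent.X262.Hb

open Crest.Agent.X277 Crest.Agent.X277.BD Crest.Agent.X277.Pst Crest.Agent.X277.BD.Cyc
open Crest.Agent.X262.Geo Polynomial

variable {K E : Type} [Field K] [Algebra ℂ K] [Field E] [Algebra ℂ E] {P Q : Type} [Fintype P]
  [Fintype Q] {a : P → BD ℂ K} {a' : Q → BD ℂ K} {V : RZ ℂ K} {x y : P → K}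
  {W U T : Submodule K (P → K)} {l : List (P → K)} {B : Th} {p : LP K E} {I : Finset P}

theorem Ech.card (h : Ech a V W I) : I.card = Module.finrank K W := by
  let f : W →ₗ[K] (I → K) := (LinearMap.funLeft K K Subtype.val).comp W.subtype
  have hf : Function.Bijective f := ⟨(injective_iff_map_eq_zero f).2 fun w hw =>
    Subtype.ext (h.eq_zero w.2 fun i hi => congrFun hw ⟨i, hi⟩), fun z => by
      classical
      obtain ⟨w, hw, h1⟩ := h.sur fun i => if hi : i ∈ I then z ⟨i, hi⟩ else 0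
      exact ⟨⟨w, hw⟩, funext fun i => (h1 i i.2).trans (dif_pos i.2)⟩⟩
  rw [(LinearEquiv.ofBijective f hf).finrank_eq]
  simp

theorem Ech.exists_basis [DecidableEq P] (h : Ech a V W I) : ∃ w : P → P → K, (∀ i, w i ∈ W) ∧
    (∀ i, ∀ j ∈ I, w i j = if j = i then 1 else 0) ∧
    (∀ i k, V.v (w i k) * (a i).val V ≤ (a k).val V) ∧ ∀ u ∈ W, u = ∑ i ∈ I, u i • w i := by
  choose w hw h1 using fun i => h.sur fun j => if j = i then 1 else 0
  refine ⟨w, hw, h1, fun i k => ?_, fun u hu => ?_⟩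
  · have h2 := nm_le.1 (h.le (w i) (hw i) ((a i).val V)⁻¹ fun j hj => by
      rw [h1 i j hj]
      split_ifs with e
      · rw [e, map_one, inv_mul_cancel₀ (val_ne _ _)]
      · simp) k
    rwa [le_inv_mul_iff₀ (val_pos _ _), mul_comm] at h2
  · refine sub_eq_zero.1 (h.eq_zero (sub_mem hu (sum_mem fun i _ => W.smul_mem _ (hw i)))
      fun j hj => ?_)
    simp [Finset.sum_apply, h1 _ j hj, hj]

/-! ### reduction -/

/-- coordinatewise reduction -/
def rv (p : LP K E) (x : P → K) : P → E := fun i => p.r (x i)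

/-- integral at the place -/
def Itg (p : LP K E) (x : P → K) : Prop := ∀ i, x i ∈ p.V.1

theorem Itg.add (hx : Itg p x) (hy : Itg p y) : Itg p (x + y) := fun i => add_mem (hx i) (hy i)

theorem Itg.sub (hx : Itg p x) (hy : Itg p y) : Itg p (x - y) := fun i => sub_mem (hx i) (hy i)

theorem Itg.smul {c : K} (hc : c ∈ p.V.1) (hx : Itg p x) : Itg p (c • x) :=
  fun i => mul_mem hc (hx i)

theorem Itg.sum {ι : Type*} {s : Finset ι} {f : ι → P → K} (h : ∀ i ∈ s, Itg p (f i)) :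
    Itg p (∑ i ∈ s, f i) :=
  Finset.sum_induction f (Itg p) (fun _ _ => Itg.add) (fun _ => zero_mem _) h

@[simp] theorem rv_zero : rv p (0 : P → K) = 0 := funext fun _ => p.r_zero

theorem rv_add (hx : Itg p x) (hy : Itg p y) : rv p (x + y) = rv p x + rv p y :=
  funext fun i => Pl.r_add (hx i) (hy i)

theorem rv_sub (hx : Itg p x) (hy : Itg p y) : rv p (x - y) = rv p x - rv p y :=
  funext fun i => Pl.r_sub (hx i) (hy i)

theorem rv_smul {c : K} (hc : c ∈ p.V.1) (hx : Itg p x) : rv p (c • x) = p.r c • rv p x :=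
  funext fun i => Pl.r_mul hc (hx i)

theorem rv_sum {ι : Type*} {s : Finset ι} {f : ι → P → K} (h : ∀ i ∈ s, Itg p (f i)) :
    rv p (∑ i ∈ s, f i) = ∑ i ∈ s, rv p (f i) := by
  classical
  induction s using Finset.induction_on with
  | empty => simp
  | insert i s hi ih =>
    have h1 : ∀ j ∈ s, Itg p (f j) := fun j hj => h j (Finset.mem_insert_of_mem hj)
    rw [Finset.sum_insert hi, Finset.sum_insert hi,
      rv_add (h i (Finset.mem_insert_self _ _)) (Itg.sum h1), ih h1]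

theorem rv_mem_rd (hx : x ∈ U) (h : Itg p x) : rv p x ∈ rd p U :=
  Submodule.subset_span ⟨x, hx, h, rfl⟩

theorem rd_le {U' : Submodule E (P → E)} (h : ∀ x ∈ U, Itg p x → rv p x ∈ U') : rd p U ≤ U' :=
  Submodule.span_le.2 (by
    rintro _ ⟨x, hx, h1, rfl⟩
    exact h x hx h1)

theorem rd_mono (h : W ≤ U) : rd p W ≤ rd p U := rd_le fun _ hx => rv_mem_rd (h hx)

theorem rd_bot : rd p (⊥ : Submodule K (P → K)) = ⊥ :=
  le_bot_iff.1 (rd_le fun x hx _ => by simp [(Submodule.mem_bot K).1 hx])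

theorem itg_iff (ha : ∀ i, (a i).val p.V = 1) : Itg p x ↔ nm a p.V x ≤ 1 := by
  simp only [nm_le, ha, mul_one, RZ.le_one_iff, Itg]

theorem rv_eq_zero (ha : ∀ i, (a i).val p.V = 1) (hx : Itg p x) : rv p x = 0 ↔ nm a p.V x < 1 := by
  refine ⟨fun h => ?_, fun h => funext fun i => (Pl.r_eq_zero (hx i)).2 ?_⟩
  · by_cases h0 : x = 0
    · simp [h0]
    obtain ⟨i, -, hi⟩ := exists_nm a p.V h0
    rw [ha, mul_one] at hi
    exact hi ▸ (Pl.r_eq_zero (hx i)).1 (congrFun h i)
  · exact (le_nm a p.V x i).trans_lt (by rwa [ha, mul_one])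

theorem nm_red_le (ha : ∀ i, (a i).val p.V = 1) (hx : Itg p x) {c : K} (hc : p.V.v c = 1)
    {Z : RZ ℂ E} : nm (fun i => p.res (a i)) Z (rv p x) ≤ Z.v (p.r c) ↔
      nm a (p.cm Z) x ≤ (p.cm Z).v c := by
  rw [nm_le, nm_le]
  refine forall_congr' fun i => ?_
  have h1 := Pl.unit_of_gen (ha i) ((a i).v_gen (p.cm Z))
  rw [Pl.val_res_gen (ha i), ← map_mul, ← Pl.r_mul (RZ.le_one_iff.1 hc.le) (RZ.le_one_iff.1 h1.le),
    ← (a i).v_gen (p.cm Z), ← map_mul, Pl.v_le_iff (hx i) (by rw [map_mul, hc, h1, one_mul])]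
  rfl

theorem nm_red (ha : ∀ i, (a i).val p.V = 1) (hx : Itg p x) (h0 : rv p x ≠ 0) {Z : RZ ℂ E} {c : K}
    (hc : (p.cm Z).v c = nm a (p.cm Z) x) :
    p.V.v c = 1 ∧ nm (fun i => p.res (a i)) Z (rv p x) = Z.v (p.r c) := by
  have h1 : x ≠ 0 := fun e => h0 (by rw [e, rv_zero])
  have h2 : p.V.v c = 1 := by
    rw [val_of_le (Pl.cm_le Z) (hc.trans (val_dst_bot h1 _).symm), val_dst_bot h1]
    exact le_antisymm ((itg_iff ha).1 hx) (not_lt.1 ((rv_eq_zero ha hx).not.1 h0))
  refine ⟨h2, le_antisymm ((nm_red_le ha hx h2).2 hc.ge) ?_⟩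
  obtain ⟨i, -, hi⟩ := exists_nm a (p.cm Z) h1
  have h3 := Pl.unit_of_gen (ha i) ((a i).v_gen (p.cm Z))
  rw [← hc, ← (a i).v_gen (p.cm Z), ← map_mul] at hi
  have h4 : p.V.v (c * (a i).gen (p.cm Z)) = 1 := by rw [map_mul, h2, h3, one_mul]
  have h5 := (Pl.v_eq_iff ((RZ.eq_of_le (Pl.cm_le Z) hi).trans h4) h4).1 hi
  rw [Pl.r_mul (RZ.le_one_iff.1 h2.le) (RZ.le_one_iff.1 h3.le), map_mul,
    ← Pl.val_res_gen (ha i)] at h5
  refine le_of_mul_le_mul_right ?_ (val_pos (p.res (a i)) Z)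
  exact h5.ge.trans (le_nm (fun i => p.res (a i)) Z (rv p x) i)

theorem Ech.red (ha : ∀ i, (a i).val p.V = 1) {Z : RZ ℂ E} (h : Ech a (p.cm Z) W I) :
    Ech (fun i => p.res (a i)) Z (rd p W) I := by
  classical
  obtain ⟨w, hw, h1, h2, h3⟩ := h.exists_basis
  have h4 : ∀ i, Itg p (w i) := fun i k => by
    have := h2 i k
    rw [← (a i).v_gen, ← (a k).v_gen, ← map_mul] at this
    have h5 := RZ.le_of_le (Pl.cm_le Z) this
    rwa [map_mul, Pl.unit_of_gen (ha i) (v_gen _ _), Pl.unit_of_gen (ha k) (v_gen _ _), mul_one,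
      RZ.le_one_iff] at h5
  have h5 : ∀ i, ∀ j ∈ I, rv p (w i) j = if j = i then 1 else 0 := fun i j hj => by
    rw [rv, h1 i j hj]
    split_ifs <;> simp
  have h6 : ∀ u ∈ rd p W, u = ∑ i ∈ I, u i • rv p (w i) := fun u hu => by
    induction hu using Submodule.span_induction with
    | mem y hy =>
      obtain ⟨y, hy, h7, rfl⟩ := hy
      change rv p y = _
      conv_lhs => rw [h3 y hy, rv_sum fun i _ => (h4 i).smul (h7 i)]
      exact Finset.sum_congr rfl fun i _ => rv_smul (h7 i) (h4 i)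
    | zero => simp
    | add y z _ _ hy hz =>
      simp only [Pi.add_apply, add_smul, Finset.sum_add_distrib, ← hy, ← hz]
    | smul c y _ hy =>
      simp only [Pi.smul_apply, smul_eq_mul, mul_smul, ← Finset.smul_sum, ← hy]
  refine ⟨fun u hu γ hγ => ?_, fun z => ⟨∑ i ∈ I, z i • rv p (w i),
    sum_mem fun i _ => Submodule.smul_mem _ _ (rv_mem_rd (hw i) (h4 i)), fun j hj => ?_⟩⟩
  · rw [h6 u hu]
    refine nm_sum_le fun i hi => ?_
    have h7 := Pl.unit_of_gen (ha i) ((a i).v_gen (p.cm Z))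
    have h8 := (nm_red_le ha (h4 i) (c := ((a i).gen (p.cm Z))⁻¹) (Z := Z)
      (by rw [map_inv₀, h7, inv_one])).2 (nm_le.2 fun k => by
        rw [map_inv₀, v_gen, le_inv_mul_iff₀ (val_pos _ _), mul_comm]
        exact h2 i k)
    rw [Pl.r_inv, map_inv₀, ← Pl.val_res_gen (ha i)] at h8
    rw [nm_smul]
    refine (mul_le_mul' (hγ i hi) h8).trans_eq ?_
    rw [mul_assoc, mul_inv_cancel₀ (val_ne _ _), mul_one]
  · simp [Finset.sum_apply, h5 _ j hj, hj]

theorem finrank_rd (p : LP K E) (U : Submodule K (P → K)) :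
    Module.finrank E (rd p U) = Module.finrank K U := by
  obtain ⟨I, hI, h⟩ := exists_ech (fun _ => 0) (p.cm (RZ.top ℂ E)) U
  rw [← h, (hI.red fun _ => rfl).card]


theorem rd_eq_of_le {U' : Submodule E (P → E)} (h : ∀ x ∈ U, Itg p x → rv p x ∈ U')
    (hr : Module.finrank E U' ≤ Module.finrank K U) : rd p U = U' :=
  Submodule.eq_of_le_of_finrank_le (rd_le h) (by rwa [finrank_rd])

theorem not_mem_of_rv (hx : Itg p x) (h : rv p x ∉ rd p W) : x ∉ W := fun e => h (rv_mem_rd e hx)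

theorem rd_sup (hx : Itg p x) (h : rv p x ∉ rd p W) : rd p (W ⊔ K ∙ x) = rd p W ⊔ E ∙ rv p x :=
  (Submodule.eq_of_le_of_finrank_eq (sup_span_le (rd_mono le_sup_left)
    (rv_mem_rd (Submodule.mem_sup_right (Submodule.mem_span_singleton_self x)) hx))
    (by rw [Flag.finrank_sup h, finrank_rd, finrank_rd,
      Flag.finrank_sup (not_mem_of_rv hx h)])).symm

theorem res_dst (ha : ∀ i, (a i).val p.V = 1) (hx : Itg p x) (h : rv p x ∉ rd p W) :
    (dst a W x).val p.V = 1 ∧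
      p.res (dst a W x) = dst (fun i => p.res (a i)) (rd p W) (rv p x) := by
  have h0 := not_mem_of_rv hx h
  have key : ∀ Z : RZ ℂ E, p.V.v ((dst a W x).gen (p.cm Z)) = 1 ∧
      ds (fun i => p.res (a i)) Z (rd p W) (rv p x) = Z.v (p.r ((dst a W x).gen (p.cm Z))) := by
    intro Z
    obtain ⟨I, hI, -⟩ := exists_ech a (p.cm Z) W
    obtain ⟨w, hw, h1⟩ := hI.sur x
    have h2 : ∀ i ∈ I, (x - w) i = 0 := fun i hi => by simp [h1 i hi]
    have h3 : Itg p w := by
      obtain ⟨c, hc⟩ := (p.cm Z).exists_v (nm a (p.cm Z) x)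
      have h4 := nm_le_of_le (Pl.cm_le Z) (c := c) ((hI.le w hw _ fun i hi => by
        rw [h1 i hi]
        exact le_nm a _ x i).trans hc.ge)
      rw [(nm_red ha hx (fun e => h (e ▸ zero_mem _)) hc).1] at h4
      exact (itg_iff ha).2 h4
    have h4 : ds a (p.cm Z) W x = nm a (p.cm Z) (x - w) :=
      le_antisymm (ds_le hw) (le_ds.2 fun u hu => by simpa using hI.min h2 (sub_mem hu hw))
    have h5 : rv p (x - w) ≠ 0 := fun e => h (by
      rw [rv_sub hx h3, sub_eq_zero] at e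
      exact e ▸ rv_mem_rd hw h3)
    obtain ⟨h6, h7⟩ := nm_red ha (hx.sub h3) h5 (Z := Z) (c := (dst a W x).gen (p.cm Z))
      (by rw [v_gen, val_dst h0, h4])
    refine ⟨h6, ?_⟩
    rw [← h7, rv_sub hx h3]
    refine le_antisymm (ds_le (rv_mem_rd hw h3)) (le_ds.2 fun u hu => ?_)
    simpa using (hI.red ha).min (x := rv p x - rv p w)
      (fun i hi => by simp [rv, h1 i hi]) (sub_mem hu (rv_mem_rd hw h3))
  have h1 : (dst a W x).val p.V = 1 := by
    rw [← val_of_le (Pl.cm_le (RZ.top ℂ E)) (v_gen _ _), (key _).1]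
  exact ⟨h1, ext' fun Z => by rw [Pl.val_res_gen h1, val_dst h, (key Z).2]⟩

theorem exists_itg (h : W < U) : ∃ x ∈ U, Itg p x ∧ rv p x ∉ rd p W := by
  by_contra h0
  push Not at h0
  have h1 := Submodule.finrank_mono (rd_le h0)
  rw [finrank_rd, finrank_rd] at h1
  exact (Submodule.finrank_lt_finrank_of_lt h).not_ge h1


/-! ### Nakayama -/

theorem le_nm_of_indep {ι : Type} [Fintype ι] {g : P → K} (hg : ∀ i, p.V.v (g i) = (a i).val p.V)
    {z : ι → P → K} (hz : ∀ j, nm a p.V (z j) ≤ 1)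
    (h : LinearIndependent E fun j i => p.r (z j i / g i)) (c : ι → K) (j : ι) :
    p.V.v (c j) ≤ nm a p.V (∑ j, c j • z j) := by
  obtain ⟨k, -, hk⟩ := Finset.exists_max_image Finset.univ (fun j => p.V.v (c j))
    ⟨j, Finset.mem_univ j⟩
  refine (hk j (Finset.mem_univ j)).trans (le_of_not_gt fun h0 => ?_)
  have h1 : c k ≠ 0 := RZ.ne_zero_iff.1 (zero_le.trans_lt h0).ne'
  have h2 : ∀ j, c j / c k ∈ p.V.1 := fun j => (RZ.le_iff h1).1 (hk j (Finset.mem_univ j))
  have h3 : ∀ j, Itg p fun i => z j i / g i := fun j i =>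
    (RZ.le_iff (ne_of_val (hg i))).1 (by simpa [hg] using nm_le.1 (hz j) i)
  have h4 := Fintype.linearIndependent_iff.1 h (fun j => p.r (c j / c k)) (by
    have h5 := rv_sum (s := Finset.univ) fun j _ => (h3 j).smul (h2 j)
    simp only [rv_smul (h2 _) (h3 _)] at h5
    refine h5.symm.trans (funext fun i => (Pl.r_eq_zero (Itg.sum (fun j _ =>
      (h3 j).smul (h2 j)) i)).2 ?_)
    have h6 : (∑ j, (c j / c k) • fun i => z j i / g i) i = (∑ j, c j • z j) i / (c k * g i) := by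
      simp only [Finset.sum_apply, Pi.smul_apply, smul_eq_mul, Finset.sum_div, div_mul_div_comm]
    rw [h6, map_div₀, map_mul, hg, div_lt_one₀ (mul_pos (RZ.pos h1) (val_pos _ _))]
    exact (le_nm a p.V _ i).trans_lt (mul_lt_mul_of_pos_right h0 (val_pos _ _))) k
  rw [div_self h1, Pl.r_one] at h4
  exact one_ne_zero h4

theorem sur_of_le {φ : (P → K) →ₗ[K] (Q → K)} {ι : Type} [Fintype ι] {z : ι → P → K}
    (hU : ∀ j, z j ∈ U) (hz : ∀ j, nm a V (z j) ≤ 1)
    (h : ∀ (c : ι → K) (j : ι), V.v (c j) ≤ nm a' V (∑ j, c j • φ (z j)))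
    (hr : Module.finrank K (U.map φ) ≤ Fintype.card ι) (hx : x ∈ U) :
    ∃ u ∈ U, φ u = φ x ∧ nm a V u ≤ nm a' V (φ x) := by
  have h1 : LinearIndependent K fun j => φ (z j) := Fintype.linearIndependent_iff.2 fun c hc j => by
    simpa [hc] using h c j
  have h2 : Submodule.span K (Set.range fun j => φ (z j)) = U.map φ :=
    Submodule.eq_of_le_of_finrank_le (Submodule.span_le.2 (by
      rintro _ ⟨j, rfl⟩
      exact Submodule.mem_map_of_mem (hU j))) (by rwa [finrank_span_eq_card h1])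
  obtain ⟨c, hc⟩ := (Submodule.mem_span_range_iff_exists_fun K).1
    (h2 ▸ Submodule.mem_map_of_mem (f := φ) hx)
  refine ⟨∑ j, c j • z j, sum_mem fun j _ => U.smul_mem _ (hU j), by simpa using hc,
    nm_sum_le fun j _ => ?_⟩
  rw [nm_smul, ← hc]
  exact (mul_le_of_le_one_right' (hz j)).trans (h c j)

/-- the lattice map is onto as soon as the reductions of the images have full rank -/
theorem sur_of_rank {φ : (P → K) →ₗ[K] (Q → K)} {g : Q → K}
    (hg : ∀ i, p.V.v (g i) = (a' i).val p.V) (hle : ∀ x ∈ U, nm a' p.V (φ x) ≤ nm a p.V x)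
    (hr : Module.finrank K (U.map φ) ≤ Module.finrank E (Submodule.span E
      {y : Q → E | ∃ x ∈ U, nm a p.V x ≤ 1 ∧ y = fun i => p.r (φ x i / g i)})) (hx : x ∈ U) :
    ∃ u ∈ U, φ u = φ x ∧ nm a p.V u ≤ nm a' p.V (φ x) := by
  obtain ⟨t, ht, h1, h2⟩ := exists_linearIndependent E
    {y : Q → E | ∃ x ∈ U, nm a p.V x ≤ 1 ∧ y = fun i => p.r (φ x i / g i)}
  have := (h2.set_finite_of_isNoetherian).fintype
  choose z h3 h4 h5 using fun j : t => ht j.2
  refine sur_of_le h3 h4 (le_nm_of_indep hg (fun j => (hle _ (h3 j)).trans (h4 j)) ?_) ?_ hx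
  · rw [show (fun (j : t) i => p.r (φ (z j) i / g i)) = Subtype.val from
      funext fun j => (h5 j).symm]
    exact h2
  · rwa [← h1, finrank_span_set_eq_card h2, Set.toFinset_card] at hr

/-! ### coordinates -/

/-- coordinatewise scaling -/
abbrev dia (c : P → K) : (P → K) →ₗ[K] (P → K) := LinearMap.pi fun i => c i • LinearMap.proj i

theorem nm_dia {c : P → K} (hc : ∀ i, c i ≠ 0) {b : P → BD ℂ K} (h : ∀ i, b i = a i + pr ℂ (c i))
    (V : RZ ℂ K) (x : P → K) : nm b V (dia c x) = nm a V x := by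
  refine Finset.sup_congr rfl fun i _ => ?_
  simp only [LinearMap.pi_apply, LinearMap.smul_apply, LinearMap.proj_apply, smul_eq_mul, map_mul,
    h, val_add, val_pr (hc i)]
  rw [mul_comm, mul_div_mul_right _ _ (RZ.pos (hc i)).ne']

theorem nm_funLeft_le (g : Q → P) (x : P → K) :
    nm (fun i => a (g i)) V (LinearMap.funLeft K K g x) ≤ nm a V x :=
  nm_le.2 fun i => le_nm a V x (g i)

theorem nm_funLeft {g : Q → P} (h : ∀ i, i ∉ Set.range g → x i = 0) :
    nm (fun i => a (g i)) V (LinearMap.funLeft K K g x) = nm a V x :=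
  le_antisymm (nm_funLeft_le g x) (nm_le.2 fun i => by
    by_cases hi : i ∈ Set.range g
    · obtain ⟨j, rfl⟩ := hi
      exact le_nm (fun i => a (g i)) V (LinearMap.funLeft K K g x) j
    · simp [h i hi])

theorem nm_single [DecidableEq P] (i : P) : nm a V (Pi.single i 1) = ((a i).val V)⁻¹ := by
  refine le_antisymm (nm_le.2 fun j => ?_) (by simpa using div_le_nm a V (Pi.single i 1) i)
  by_cases h : j = i
  · simp [h, inv_mul_cancel₀ (val_ne (a i) V)]
  · simp [Pi.single_eq_of_ne h]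

/-- the direct sum of two subspaces -/
def dsum (U : Submodule K (P → K)) (U' : Submodule K (Q → K)) : Submodule K (P ⊕ Q → K) :=
  U.comap (LinearMap.funLeft K K Sum.inl) ⊓ U'.comap (LinearMap.funLeft K K Sum.inr)

theorem mem_dsum {U' : Submodule K (Q → K)} {z : P ⊕ Q → K} :
    z ∈ dsum U U' ↔ (fun i => z (Sum.inl i)) ∈ U ∧ (fun i => z (Sum.inr i)) ∈ U' := Iff.rfl

namespace Th.Ax

variable (hB : B.Ax) [Algebra.EssFiniteType ℂ K]
include hB

/-- **naturality** of the Chern polynomial -/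
theorem cp2_rd [Algebra.EssFiniteType ℂ E] (ha : ∀ i, (a i).val p.V = 1) (hW : W ≤ U) :
    (B.cp2 a W U).map (B.pb p : B.H K →+* B.H E) =
      B.cp2 (fun i => p.res (a i)) (rd p W) (rd p U) := by
  induction hn : Module.finrank K U - Module.finrank K W generalizing W with
  | zero =>
    obtain rfl : W = U := Submodule.eq_of_le_of_finrank_le hW (by omega)
    rw [hB.cp2_self, hB.cp2_self, Polynomial.map_one]
  | succ n ih =>
    obtain ⟨x, hx, h1, h2⟩ := exists_itg (p := p) (lt_of_le_of_ne hW (by rintro rfl; simp at hn))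
    have h0 := not_mem_of_rv h1 h2
    have h3 := sup_span_le hW hx
    obtain ⟨h4, h5⟩ := res_dst ha h1 h2
    rw [hB.cp2_tower le_sup_left h3, hB.cp2_tower (rd_mono le_sup_left) (rd_mono h3),
      Polynomial.map_mul, ih h3 (by rw [Flag.finrank_sup h0]; omega), hB.cp2_line h0,
      rd_sup h1 h2, hB.cp2_line h2, Polynomial.map_sub, map_C, map_X, map_neg, map_neg, map_neg,
      RingHom.coe_coe, hB.pb_c1_res p h4, h5, map_neg B.c1, map_neg]

theorem cp_rd [Algebra.EssFiniteType ℂ E] (ha : ∀ i, (a i).val p.V = 1)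
    (U : Submodule K (P → K)) :
    (B.cp a U).map (B.pb p : B.H K →+* B.H E) = B.cp (fun i => p.res (a i)) (rd p U) := by
  rw [Th.cp, hB.cp2_rd ha bot_le, rd_bot, Th.cp]

theorem cq_rd [Algebra.EssFiniteType ℂ E] (ha : ∀ i, (a i).val p.V = 1)
    (U : Submodule K (P → K)) :
    (B.cq a U).map (B.pb p : B.H K →+* B.H E) = B.cq (fun i => p.res (a i)) (rd p U) :=
  Polynomial.ext fun n => by rw [coeff_map, coeff_cq, coeff_cq, ← hB.cp_rd ha, coeff_map, map_neg]

omit hB [Algebra.EssFiniteType ℂ K] in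
theorem _root_.Crest.Agent.X262.Hb.pb_eval (p : LP K E) (f : (B.H K)[X]) (d : B.H K) :
    B.pb p (f.eval d) = (f.map (B.pb p : B.H K →+* B.H E)).eval (B.pb p d) := by
  rw [eval_map, ← RingHom.coe_coe, eval₂_at_apply]



theorem pb_eval_cq [Algebra.EssFiniteType ℂ E] (ha : ∀ i, (a i).val p.V = 1)
    (U : Submodule K (P → K)) (d : B.H K) : B.pb p ((B.cq a U).eval d) =
      (B.cq (fun i => p.res (a i)) (rd p U)).eval (B.pb p d) := by rw [pb_eval, hB.cq_rd ha]

/-- gauge invariance -/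
theorem cp2_dia {c : P → K} (hc : ∀ i, c i ≠ 0) {b : P → BD ℂ K} (h : ∀ i, b i = a i + pr ℂ (c i))
    (hW : W ≤ U) : B.cp2 b (W.map (dia c)) (U.map (dia c)) = B.cp2 a W U :=
  hB.cp2_iso hW fun V x _ => nm_dia hc h V x

theorem cp_dia {c : P → K} (hc : ∀ i, c i ≠ 0) {b : P → BD ℂ K} (h : ∀ i, b i = a i + pr ℂ (c i))
    (U : Submodule K (P → K)) : B.cp b (U.map (dia c)) = B.cp a U :=
  hB.cp_iso fun V x _ => nm_dia hc h V x

theorem cq_dia {c : P → K} (hc : ∀ i, c i ≠ 0) {b : P → BD ℂ K} (h : ∀ i, b i = a i + pr ℂ (c i))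
    (U : Submodule K (P → K)) : B.cq b (U.map (dia c)) = B.cq a U := by
  rw [Th.cq, hB.cp_dia hc h, Th.cq]

/-- forgetting coordinates which vanish on `U`; reindexing -/
theorem cp_funLeft {g : Q → P} (h : ∀ x ∈ U, ∀ i, i ∉ Set.range g → x i = 0) :
    B.cp (fun i => a (g i)) (U.map (LinearMap.funLeft K K g)) = B.cp a U :=
  hB.cp_iso fun _ x hx => nm_funLeft (h x hx)

theorem cp_dsum (U : Submodule K (P → K)) (U' : Submodule K (Q → K)) :
    B.cp (Sum.elim a a') (dsum U U') = B.cp a U * B.cp a' U' := by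
  have h : Ont (Sum.elim a a') a' (LinearMap.funLeft K K Sum.inr) (dsum U U') :=
    ⟨fun V x _ => nm_funLeft_le (a := Sum.elim a a') Sum.inr x, fun V x hx =>
      ⟨Sum.elim 0 fun i => x (Sum.inr i), ⟨U.zero_mem, hx.2⟩, rfl,
        (nm_funLeft (a := Sum.elim a a') (g := Sum.inr) (by rintro (i | i) hi <;> simp_all)).ge⟩⟩
  rw [hB.cp_whitney h, ← hB.cp_funLeft (g := Sum.inl)]
  · congr 2
    · refine le_antisymm ?_ fun x hx => ⟨Sum.elim x 0, ⟨⟨hx, U'.zero_mem⟩, rfl⟩, rfl⟩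
      rintro _ ⟨x, hx, rfl⟩
      exact hx.1.1
    · refine le_antisymm ?_ fun x hx => ⟨Sum.elim 0 x, ⟨U.zero_mem, hx⟩, rfl⟩
      rintro _ ⟨x, hx, rfl⟩
      exact hx.2
  · rintro x hx (i | i) hi
    · simp at hi
    · exact congrFun (LinearMap.mem_ker.1 hx.2) i

theorem cp_coord (a : P → BD ℂ K) (s : Finset P) :
    B.cp a (⨅ i ∉ s, LinearMap.ker (LinearMap.proj i)) = ∏ i ∈ s, (C (B.c1 (a i)) - X) := by
  classical
  induction s using Finset.induction_on with
  | empty =>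
    rw [Finset.prod_empty, ← hB.cp_bot (a := a)]
    congr 1
    exact le_bot_iff.1 fun x hx => funext fun i => by simpa using (by simpa using hx : ∀ i, x i = 0) i
  | insert j s hj ih =>
    have h0 : (Pi.single j 1 : P → K) ∉ ⨅ i ∉ s, LinearMap.ker (LinearMap.proj (R := K) i) := by
      simp only [Submodule.mem_iInf, LinearMap.mem_ker, LinearMap.proj_apply, not_forall]
      exact ⟨j, hj, by simp⟩
    have h1 : (⨅ i ∉ insert j s, LinearMap.ker (LinearMap.proj i) : Submodule K (P → K)) =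
        (⨅ i ∉ s, LinearMap.ker (LinearMap.proj i)) ⊔ K ∙ Pi.single j 1 := by
      refine le_antisymm (fun x hx => Submodule.mem_sup.2 ⟨x - x j • Pi.single j 1, ?_, _,
        Submodule.mem_span_singleton.2 ⟨x j, rfl⟩, by simp⟩) (sup_span_le (fun x hx => ?_) ?_)
      all_goals simp only [Submodule.mem_iInf, LinearMap.mem_ker, LinearMap.proj_apply,
        Finset.mem_insert, not_or] at *
      · intro i hi
        by_cases h : i = j
        · simp [h]
        · simp [Pi.single_eq_of_ne h, hx i ⟨h, hi⟩]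
      · exact fun i hi => hx i hi.2
      · exact fun i hi => Pi.single_eq_of_ne hi.1 _
    rw [h1, hB.cp_tower le_sup_left, ih, hB.cp2_line h0, Finset.prod_insert hj, mul_comm]
    congr 4
    refine ext' fun V => ?_
    rw [val_neg, val_dst h0, inv_eq_iff_eq_inv]
    refine le_antisymm (ds_le_nm.trans (nm_single j).le) (le_ds.2 fun w hw => ?_)
    have h2 : w j = 0 := by
      simp only [Submodule.mem_iInf, LinearMap.mem_ker, LinearMap.proj_apply] at hw
      exact hw j hj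
    have h3 := div_le_nm a V (Pi.single j 1 - w) j
    rwa [Pi.sub_apply, h2, Pi.single_eq_same, sub_zero, map_one, one_div] at h3

theorem cp_top (a : P → BD ℂ K) : B.cp a ⊤ = ∏ i, (C (B.c1 (a i)) - X) := by
  simpa using hB.cp_coord a Finset.univ

end Th.Ax

end Crest.Agent.X262.Hb
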