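import Crest.Agent.X262.Geo.Val

/-!
# Row 262, road B, Hb (helper61), part 0: b-cohomology of fields over `ℂ`

* `LP K E`      : `ℂ`-linear places of `K` with values in `E`; `LP.comp`, `LP.hom`, `LP.at`;
* `Th`, `Th.Ax` : the theory `H K` (even cohomology of all smooth models), `pb`, `itg`, `c1`, `ty`;
* `nm a V x`    : the norm on `P → K` whose unit ball is `⊕ O(a i)` at `V`;
  `dst a W x`   : the b-divisor whose value is the distance from `x` to the subspace `W`;
* `cp2 a W U`   : `c_top ((U / W) (-X))` for the saturated subsheaves `W ≤ U` of `⊕ O(a i)`;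
  `cp a U`, `cq a U` (`X * cq = cp(0) - cp`);
* `rd p U`      : the reduction of a subspace along a place.
-/

set_option autoImplicit false

noncomputable section

namespace Crest.Agent.X262.Hb

open Crest.Agent.X277 Crest.Agent.X277.BD Crest.Agent.X277.Pst Crest.Agent.X277.BD.Cyc
open Crest.Agent.X262.Geo (od)
open Polynomial

/-- `ℂ`-linear places -/
structure LP (K E : Type) [Field K] [Algebra ℂ K] [Field E] [Algebra ℂ E] extends Pl ℂ K ℂ E where
  lnr : Lnr toPl

namespace LP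

variable {K E L : Type} [Field K] [Algebra ℂ K] [Field E] [Algebra ℂ E] [Field L] [Algebra ℂ L]

/-- the place of a field embedding -/
def hom (α : K →ₐ[ℂ] E) : LP K E where
  toPl := Pl.ofHom (α : K →+* E) (alg_ov α)
  lnr c := (Pl.r_ofHom _ _ _).trans (α.commutes c)

/-- the place of a valuation ring -/
def «at» (V : RZ ℂ K) : LP K (Rf V) := ⟨plV V, lnr_plV V⟩

/-- composition: first `p`, then `q` -/
def comp (p : LP K E) (q : LP E L) : LP K L where
  V := p.cm q.V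
  φ :=
    { toFun := fun x => q.r (p.r x)
      map_one' := by simp
      map_mul' := fun x y => by
        rw [Subring.coe_mul, Pl.r_mul x.2.1 y.2.1, Pl.r_mul x.2.2 y.2.2]
      map_zero' := by simp
      map_add' := fun x y => by
        rw [Subring.coe_add, Pl.r_add x.2.1 y.2.1, Pl.r_add x.2.2 y.2.2] }
  ker x := by
    change q.r (p.r x) = 0 ↔ _
    rw [Pl.r_eq_zero x.2.2]
    by_cases h : p.V.v x = 1
    · rw [← not_le, ← not_le, ← map_one (p.cm q.V).v, Pl.v_le_iff (one_mem _) h, Pl.r_one, map_one]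
    · have h1 : p.V.v x < 1 := lt_of_le_of_ne (RZ.le_one_iff.2 x.2.1) h
      rw [(Pl.r_eq_zero x.2.1).2 h1, map_zero]
      refine iff_of_true zero_lt_one (lt_of_not_ge fun h2 => h1.not_ge ?_)
      simpa using RZ.le_of_le (Pl.cm_le (p := p.toPl) q.V) (x := (1 : K)) (y := (x : K)) (by simpa using h2)
  ov c := ⟨c, by
    change q.r (p.r (algebraMap ℂ K c)) = _
    rw [p.lnr c, q.lnr c]⟩
  lnr c := by
    rw [Pl.r_eq _ ((p.cm q.V).2 c)]
    change q.r (p.r (algebraMap ℂ K c)) = _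
    rw [p.lnr c, q.lnr c]

end LP

/-- `L` is the function field of the product -/
def Prd {K₁ K₂ L : Type} [Field K₁] [Algebra ℂ K₁] [Field K₂] [Algebra ℂ K₂] [Field L]
    [Algebra ℂ L] (α₁ : K₁ →ₐ[ℂ] L) (α₂ : K₂ →ₐ[ℂ] L) : Prop :=
  dim ℂ L = dim ℂ K₁ + dim ℂ K₂ ∧ α₁.fieldRange ⊔ α₂.fieldRange = ⊤

/-- the data of a b-cohomology theory -/
structure Th where
  /-- even classes on the smooth models of the finitely generated subfields -/
  H : (K : Type) → [Field K] → [Algebra ℂ K] → Type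
  cr : ∀ (K : Type) [Field K] [Algebra ℂ K], CommRing (H K)
  al : ∀ (K : Type) [Field K] [Algebra ℂ K], letI := cr K; Algebra ℂ (H K)
  /-- pull-back along a place -/
  pb : ∀ {K E : Type} [Field K] [Algebra ℂ K] [Field E] [Algebra ℂ E], LP K E →
    letI := cr K; letI := cr E; letI := al K; letI := al E; H K →ₐ[ℂ] H E
  /-- the integral (for finitely generated fields) -/
  itg : ∀ (K : Type) [Field K] [Algebra ℂ K], letI := cr K; letI := al K; H K →ₗ[ℂ] ℂ
  /-- first Chern class -/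
  c1 : ∀ {K : Type} [Field K] [Algebra ℂ K], letI := cr K; BD ℂ K →+ H K
  /-- classes of Hodge type `(p, q)` -/
  ty : ∀ (K : Type) [Field K] [Algebra ℂ K], ℕ → ℕ →
    letI := cr K; letI := al K; Submodule ℂ (H K)

instance (B : Th) (K : Type) [Field K] [Algebra ℂ K] : CommRing (B.H K) := B.cr K

instance (B : Th) (K : Type) [Field K] [Algebra ℂ K] : Algebra ℂ (B.H K) := B.al K

/-- the axioms -/
structure Th.Ax (B : Th) : Prop where
  pb_comp : ∀ {K E L : Type} [Field K] [Algebra ℂ K] [Field E] [Algebra ℂ E] [Field L]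
    [Algebra ℂ L] (p : LP K E) (q : LP E L) (x : B.H K), B.pb (p.comp q) x = B.pb q (B.pb p x)
  pb_id : ∀ {K : Type} [Field K] [Algebra ℂ K] (x : B.H K),
    B.pb (LP.hom (AlgHom.id ℂ K)) x = x
  /-- every class depends on the values of finitely many functions -/
  loc : ∀ {K : Type} [Field K] [Algebra ℂ K] (x : B.H K), ∃ (s : Finset K)
    (Φ : ∀ (E : Type) [Field E] [Algebra ℂ E], (s → E) → B.H E),
    (∀ (E : Type) [Field E] [Algebra ℂ E] (p : LP K E), B.pb p x = Φ E fun f => p.r f) ∧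
    ∀ (E E' : Type) [Field E] [Algebra ℂ E] [Field E'] [Algebra ℂ E'] (α : E →ₐ[ℂ] E')
      (z : s → E), Φ E' (fun f => α (z f)) = B.pb (LP.hom α) (Φ E z)
  c1_pr : ∀ {K : Type} [Field K] [Algebra ℂ K] (f : K), B.c1 (pr ℂ f) = 0
  pb_c1 : ∀ {K E : Type} [Field K] [Algebra ℂ K] [Field E] [Algebra ℂ E] (p : LP K E)
    (a : BD ℂ K), B.pb p (B.c1 a) = B.c1 (p.rs a)
  /-- degree formula; `deg α = 0` if the extension is not finite -/
  deg : ∀ {K E : Type} [Field K] [Algebra ℂ K] [Field E] [Algebra ℂ E]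
    [Algebra.EssFiniteType ℂ K] [Algebra.EssFiniteType ℂ E] (α : K →ₐ[ℂ] E) (x : B.H K),
    B.itg E (B.pb (LP.hom α) x) = deg α * B.itg K x
  /-- cycle formula -/
  cyc : ∀ {K : Type} [Field K] [Algebra ℂ K] [Algebra.EssFiniteType ℂ K] (a : BD ℂ K)
    (x : B.H K), B.itg K (B.c1 a * x) =
      ∑ᶠ (V : RZ ℂ K) (_ : Dvs V), od V a * B.itg (Rf V) (B.pb (LP.at V) x)
  /-- Poincare duality -/
  pd : ∀ {K : Type} [Field K] [Algebra ℂ K] [Algebra.EssFiniteType ℂ K] (x : B.H K),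
    (∀ y, B.itg K (x * y) = 0) → x = 0
  itg_one : B.itg ℂ 1 = 1
  pt : ∀ x : B.H ℂ, ∃ c : ℂ, x = algebraMap ℂ _ c
  /-- Fubini -/
  fub : ∀ {K₁ K₂ L : Type} [Field K₁] [Algebra ℂ K₁] [Field K₂] [Algebra ℂ K₂] [Field L]
    [Algebra ℂ L] [Algebra.EssFiniteType ℂ K₁] [Algebra.EssFiniteType ℂ K₂]
    [Algebra.EssFiniteType ℂ L] (α₁ : K₁ →ₐ[ℂ] L) (α₂ : K₂ →ₐ[ℂ] L), Prd α₁ α₂ →
    ∀ (x : B.H K₁) (y : B.H K₂),
      B.itg L (B.pb (LP.hom α₁) x * B.pb (LP.hom α₂) y) = B.itg K₁ x * B.itg K₂ y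
  ty_one : ∀ {K : Type} [Field K] [Algebra ℂ K], (1 : B.H K) ∈ B.ty K 0 0
  ty_c1 : ∀ {K : Type} [Field K] [Algebra ℂ K] (a : BD ℂ K), B.c1 a ∈ B.ty K 1 1
  ty_mul : ∀ {K : Type} [Field K] [Algebra ℂ K] {p q p' q' : ℕ} {x y : B.H K},
    x ∈ B.ty K p q → y ∈ B.ty K p' q' → x * y ∈ B.ty K (p + p') (q + q')
  ty_pb : ∀ {K E : Type} [Field K] [Algebra ℂ K] [Field E] [Algebra ℂ E] (π : LP K E) {p q : ℕ}
    {x : B.H K}, x ∈ B.ty K p q → B.pb π x ∈ B.ty E p q
  ty_itg : ∀ {K : Type} [Field K] [Algebra ℂ K] [Algebra.EssFiniteType ℂ K] {p q : ℕ}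
    {x : B.H K}, x ∈ B.ty K p q → p ≠ dim ℂ K ∨ q ≠ dim ℂ K → B.itg K x = 0
  ty_zero : ∀ {K : Type} [Field K] [Algebra ℂ K] [Algebra.EssFiniteType ℂ K] {p q : ℕ}
    {x : B.H K}, x ∈ B.ty K p q → dim ℂ K < p ∨ dim ℂ K < q → x = 0

/-! ### saturated subsheaves of `⊕ O(a i)` -/

section Sat

variable {K : Type} [Field K] [Algebra ℂ K] {P : Type} [Fintype P]

/-- the norm at `V`; its unit ball is `⊕ O(a i)` -/
def nm (a : P → BD ℂ K) (V : RZ ℂ K) (x : P → K) : V.1.ValueGroup :=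
  Finset.univ.sup fun i => V.v (x i) / (a i).val V

/-- the value of `b` is the distance from `x` to `W` -/
def IsDst (a : P → BD ℂ K) (W : Submodule K (P → K)) (x : P → K) (b : BD ℂ K) : Prop :=
  ∀ V, (∀ w ∈ W, b.val V ≤ nm a V (x - w)) ∧ ∃ w ∈ W, nm a V (x - w) = b.val V

open Classical in
/-- the distance from `x` to `W` as a b-divisor; `- dst a W x` is the class of `(W + K x) / W` -/
def dst (a : P → BD ℂ K) (W : Submodule K (P → K)) (x : P → K) : BD ℂ K :=
  if h : ∃ b, IsDst a W x b then h.choose else 0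

/-- `l` is a basis of `U` modulo `W` -/
inductive Flag : Submodule K (P → K) → List (P → K) → Submodule K (P → K) → Prop
  | nil (W : Submodule K (P → K)) : Flag W [] W
  | cons {W U : Submodule K (P → K)} {x : P → K} {l : List (P → K)} :
      x ∉ W → Flag (W ⊔ K ∙ x) l U → Flag W (x :: l) U

/-- the Chern roots of a flag -/
def rts (a : P → BD ℂ K) : Submodule K (P → K) → List (P → K) → List (BD ℂ K)
  | _, [] => []
  | W, x :: l => -dst a W x :: rts a (W ⊔ K ∙ x) l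

variable (B : Th)

/-- `∏ (c1 b - X)` -/
def Th.cl (l : List (BD ℂ K)) : (B.H K)[X] := (l.map fun b => C (B.c1 b) - X).prod

open Classical in
/-- `c_top ((U / W) (-X))` -/
def Th.cp2 (a : P → BD ℂ K) (W U : Submodule K (P → K)) : (B.H K)[X] :=
  if h : ∃ l, Flag W l U then B.cl (rts a W h.choose) else 1

/-- `c_top (U (-X))` -/
def Th.cp (a : P → BD ℂ K) (U : Submodule K (P → K)) : (B.H K)[X] := B.cp2 a ⊥ U

/-- `X * cq = cp(0) - cp` -/
def Th.cq (a : P → BD ℂ K) (U : Submodule K (P → K)) : (B.H K)[X] := -(B.cp a U).divX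

/-- reduction of a subspace along a place (for `a` with `(a i).val p.V = 1`) -/
def rd {E : Type} [Field E] [Algebra ℂ E] (p : LP K E) (U : Submodule K (P → K)) :
    Submodule E (P → E) :=
  Submodule.span E {y | ∃ x ∈ U, (∀ i, x i ∈ p.V.1) ∧ y = fun i => p.r (x i)}

end Sat

end Crest.Agent.X262.Hb
end
private theorem rz_604f53f190 : type_of% @_root_.Crest.Agent.X262.Hb.rts.eq_def := @_root_.Crest.Agent.X262.Hb.rts.eq_def -- L168
private theorem rz_6d10e9af15 : type_of% @_root_.Crest.Agent.X262.Hb.rts.eq_1 := @_root_.Crest.Agent.X262.Hb.rts.eq_1 -- L168
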