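import Crest.Agent.X262.Hb.DiagD
import Crest.Agent.X262.Hb.Sat2
import Crest.Agent.X262.Vb.Bas0
import Crest.Agent.X262.Node22.Gau

/-!
# Row 262, road B, Hb (helper61), part 6: naturality of `cT` and of the diagonal class `dgc`

* `mem_eul`, `ds_eul` : the minors compute the distance to the Euler vectors;
* `cT_scl`, `cT_red`, `cT_map`, `cT_dh`, `dgc_scl`, `dgc_red`, `dgc_map`, `mcls_dgc`;
* `dgc_meet`.
-/

set_option autoImplicit false
set_option linter.unusedSectionVars false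

noncomputable section

namespace Crest.Agent.X262.Hb

open Crest.Agent.X277 Crest.Agent.X277.BD Crest.Agent.X277.Pst Crest.Agent.X277.BD.Cyc Polynomial
open Crest.Agent.X262.Vb Module
open Crest.Agent.X262.Node22 (scl vec vsc wg dl da Par Dg gD wg_apply vsc_apply)

variable {J : Type} [Fintype J] [DecidableEq J] {io : J → Type} [∀ j, Fintype (io j)]
  [∀ j, DecidableEq (io j)] {A : Type} [Fintype A] {K E : Type} [Field K] [Algebra ℂ K] [Field E]
  [Algebra ℂ E] {y y' : Pnt io K} {τ : Vr io → K} {c c' : J → K} {T : Tgt io A} {B : Th} {n : ℕ}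

theorem mem_eul : τ ∈ eul y ↔ ∃ l, vsc l (vec y) = τ := by
  rw [eul, Submodule.mem_span_range_iff_exists_fun]
  refine exists_congr fun l => Eq.congr_left (funext fun v => ?_)
  simp [Finset.sum_apply, vec]

theorem wdg_eq (y y' : Pnt io K) : wdg y y' = dl y y' := rfl

theorem dh_eq (y y' : Pnt io K) : dh y y' = -sz (dl y y') (da y y') := rfl

theorem eul_eq_ker (h : NZ y) : eul y = LinearMap.ker (wg.flip (vec y)) :=
  Submodule.ext fun τ => by
    rw [mem_eul, LinearMap.mem_ker, LinearMap.flip_apply, Node22.wg_eq_zero h]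
    exact exists_congr fun _ => eq_comm

theorem finrank_eul (h : NZ y) : finrank K (eul y) = Fintype.card J := by
  rw [eul_eq_ker h, Node22.finrank_ker_wg h]

theorem eul_le (h : T.On y) : eul y ≤ LinearMap.ker (T.jac y) := fun τ hτ => by
  obtain ⟨l, rfl⟩ := mem_eul.1 hτ
  exact Node22.jac_euler T h l

theorem eul_scl (hc : ∀ j, c j ≠ 0) (y : Pnt io K) : eul (scl c y) = eul y :=
  Submodule.ext fun τ => by
    rw [mem_eul, mem_eul]
    refine ⟨fun ⟨l, h⟩ => ⟨l * c, h ▸ funext fun v => ?_⟩,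
      fun ⟨l, h⟩ => ⟨l / c, h ▸ funext fun v => ?_⟩⟩
    · simp [vec, scl, mul_assoc]
    · simp [vec, scl, ← mul_assoc, hc v.1]

theorem mem_eul_iff (h : NZ y) : τ ∈ eul y ↔ wg (vec y) τ = 0 := by
  rw [eul_eq_ker h, LinearMap.mem_ker, LinearMap.flip_apply, Node22.wg_swap, neg_eq_zero]

/-- the minors compute the distance to the Euler vectors -/
theorem ds_eul (h : NZ y) (hP : Par y' y) (V : RZ ℂ K) (τ : Vr io → K) :
    ds (fun v : Vr io => ln y' v.1) V (eul y') τ = nm (da y y') V (wg (vec y) τ) := by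
  obtain ⟨c, hc, rfl⟩ := hP
  rw [eul_scl hc]
  refine le_antisymm ?_ (le_ds.2 fun e he => ?_)
  · choose i hi using fun j => exists_ln h j V
    refine ds_le_iff.2 ⟨_, mem_eul.2 ⟨fun j => τ ⟨j, i j⟩ / y j (i j), rfl⟩, nm_le.2 fun v => ?_⟩
    have h0 : y v.1 (i v.1) ≠ 0 := RZ.ne_zero_iff.1 (hi v.1 ▸ val_ne _ _)
    have h1 : (τ - vsc (fun j => τ ⟨j, i j⟩ / y j (i j)) (vec y)) v =
        wg (vec y) τ ⟨v.1, i v.1, v.2⟩ / y v.1 (i v.1) := by
      simp only [Pi.sub_apply, vsc_apply, wg_apply, vec]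
      field_simp
    rw [h1, map_div₀, hi, div_le_iff₀ (val_pos _ _), mul_assoc, mul_comm ((ln _ _).val V),
      ← val_add]
    exact le_nm _ V _ (⟨v.1, i v.1, v.2⟩ : Dg io)
  · have h1 : wg (vec y) τ = wg (vec y) (τ - e) := by
      rw [map_sub, (mem_eul_iff h).1 he, sub_zero]
    rw [h1]
    refine nm_le.2 fun x => ?_
    rw [wg_apply, da, val_add, mul_left_comm]
    refine (V.v.map_sub _ _).trans (max_le ?_ ?_) <;> rw [map_mul]
    · exact mul_le_mul' (le_ln y x.1 _ V) (le_nm _ V (τ - e) ⟨x.1, x.2.2⟩)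
    · exact mul_le_mul' (le_ln y x.1 _ V) (le_nm _ V (τ - e) ⟨x.1, x.2.1⟩)

theorem dst_eul (h : NZ y) (hP : Par y' y) (hτ : wg (vec y) τ ≠ 0) :
    dst (fun v : Vr io => ln y' v.1) (eul y') τ = sz (wg (vec y) τ) (da y y') := ext' fun V => by
  have h1 : τ ∉ eul y' := by
    obtain ⟨c, hc, rfl⟩ := hP
    rw [eul_scl hc, mem_eul_iff h]
    exact hτ
  rw [val_dst h1, val_sz hτ, ds_eul h hP]

theorem nm_dl_le (y y' : Pnt io K) (V : RZ ℂ K) : nm (da y y') V (dl y y') ≤ 1 :=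
  nm_le.2 fun x => by
    rw [dl, wg_apply, da, val_add, one_mul]
    refine (V.v.map_sub _ _).trans (max_le ?_ ?_) <;> rw [map_mul] <;>
      exact mul_le_mul' (le_ln y x.1 _ V) (le_ln y' x.1 _ V)

theorem dh_scl (h : NZ y) (h' : NZ y') (hc : ∀ j, c j ≠ 0) (hc' : ∀ j, c' j ≠ 0) :
    dh (scl c y) (scl c' y') = dh y y' := by
  rw [dh_eq, dh_eq, ← sz_scl (Node22.gD_ne hc hc') (da y y')]
  congr 2
  · exact funext fun x => Node22.dl_scl c c' y y' x
  · funext x
    rw [da, da, ln_scl h hc, ln_scl h' hc', gD, pr_mul (hc _) (hc' _)]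
    abel

theorem dl_scl_eq_zero (hc : ∀ j, c j ≠ 0) (hc' : ∀ j, c' j ≠ 0) :
    dl (scl c y) (scl c' y') = 0 ↔ dl y y' = 0 := by
  simp only [funext_iff, Node22.dl_scl, Pi.zero_apply, mul_eq_zero, Node22.gD_ne hc hc', false_or]

theorem finrank_ker_jac (hS : Smo T n) (h : NZ y) (hO : T.On y) :
    n + finrank K (LinearMap.ker (T.jac y)) = Fintype.card (Vr io) := by
  obtain ⟨-, S, hS⟩ := hS
  rw [← (hS K y h hO).1, Tgt.Nm, LinearMap.finrank_range_add_finrank_ker,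
    finrank_fintype_fun_eq_card]

variable {p : LP K E}

theorem rd_eul (h : Prim p.V y) : rd p (eul y) = eul (redP p.toPl y) :=
  rd_eq_of_le (fun x hx hi => (mem_eul_iff h.nz_red).2 (by
      have h1 := Node22.r_wg (p := p.toPl) (Node22.Prim.int h) hi
      rw [(mem_eul_iff h.nz).1 hx] at h1
      exact h1.symm.trans (funext fun _ => p.r_zero)))
    (by rw [finrank_eul h.nz, finrank_eul h.nz_red])

theorem rd_ker_jac (hS : Smo T n) (h : Prim p.V y) (hO : T.On y) :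
    rd p (LinearMap.ker (T.jac y)) = LinearMap.ker (T.jac (redP p.toPl y)) :=
  rd_eq_of_le (fun x hx hi => by
      have h1 := Node22.r_jac (p := p.toPl) p.lnr T (Node22.Prim.int h) hi
      rw [LinearMap.mem_ker.1 hx] at h1
      exact h1.symm.trans (funext fun _ => p.r_zero))
    (by
      have h1 := finrank_ker_jac hS h.nz hO
      have h2 := finrank_ker_jac hS h.nz_red (on_red T p.lnr (fun j => (h j).1) hO)
      omega)

theorem r_dl (h : Prim p.V y) (h' : Prim p.V y') :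
    (fun x => p.r (dl y y' x)) = dl (redP p.toPl y) (redP p.toPl y') :=
  Node22.r_wg (p := p.toPl) (Node22.Prim.int h) (Node22.Prim.int h')

theorem val_da {V : RZ ℂ K} (h : Prim V y) (h' : Prim V y') (x : Dg io) :
    (da y y' x).val V = 1 := by rw [da, val_add, h.val_ln, h'.val_ln, one_mul]

theorem res_da (h : Prim p.V y) (h' : Prim p.V y') :
    (fun x => p.res (da y y' x)) = da (redP p.toPl y) (redP p.toPl y') := funext fun x => by
  rw [da, da, ln_red h, ln_red h', Pl.res_add (h.val_ln _) (h'.val_ln _)]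

theorem dl_red_eq_zero (h : Prim p.V y) (h' : Prim p.V y') :
    dl (redP p.toPl y) (redP p.toPl y') = 0 ↔ nm (da y y') p.V (dl y y') < 1 := by
  rw [← r_dl h h']
  exact rv_eq_zero (val_da h h') ((itg_iff (val_da h h')).2 (nm_dl_le y y' _))

/-- the direction from `y'` to `y` is a tangent vector -/
theorem exists_dir (h : Prim p.V y) (h' : Prim p.V y') (hO : T.On y) (hO' : T.On y') {u : K}
    (hu : 1 < p.V.v u) (hi : Itg p (u • dl y y')) : ∃ t : Vr io → E,
    T.jac (redP p.toPl y') t = 0 ∧ wg (vec (redP p.toPl y)) t = rv p (u • dl y y') := by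
  have hu0 : u ≠ 0 := RZ.ne_zero_iff.1 (zero_lt_one.trans hu).ne'
  have ht1 : p.V.v u⁻¹ < 1 := by rw [map_inv₀]; exact inv_lt_one_of_one_lt₀ hu
  have ht : u⁻¹ ∈ p.V.1 := RZ.le_one_iff.1 ht1.le
  obtain ⟨l, hτ⟩ := Node22.exists_int_wg h (u • vec y') (γ := 1) fun x => by
    rw [Node22.wg_swap, map_smul, Pi.neg_apply, Valuation.map_neg]
    exact RZ.le_one_iff.2 (hi x)
  set τ := u • vec y' - vsc l (vec y) with hτd
  have hτi : Itg p τ := fun v => RZ.le_one_iff.1 (hτ v)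
  have e1 : vec (scl (fun j => u⁻¹ * l j) y) = fun v => vec y' v + -u⁻¹ * τ v := funext fun v => by
    simp only [hτd, Node22.vec_scl, vsc_apply, Pi.sub_apply, Pi.smul_apply, smul_eq_mul]
    field_simp
    ring
  refine ⟨rv p τ, funext fun a => ?_, ?_⟩
  · obtain ⟨r, hr, e⟩ := Node22.taylor_val p.V (Node22.Prim.int (p := p.toPl) h') hτi
      (neg_mem ht) (T.F a)
    have e0 : MvPolynomial.aeval (vec (scl (fun j => u⁻¹ * l j) y)) (T.F a) = 0 :=
      Node22.on_scl T hO _ a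
    rw [← e1, ← Node22.jac_apply, e0,
      show MvPolynomial.aeval (vec y') (T.F a) = 0 from hO' a] at e
    have e3 : T.jac y' τ a = u⁻¹ * r := by
      field_simp at e ⊢
      linear_combination e
    have e4 := congrFun (Node22.r_jac (p := p.toPl) p.lnr T (Node22.Prim.int h') hτi) a
    refine e4.symm.trans ?_
    change p.r _ = 0
    rw [e3, Pl.r_mul ht hr, (Pl.r_eq_zero ht).2 ht1, zero_mul]
  · refine (Node22.r_wg (p := p.toPl) (Node22.Prim.int h) hτi).symm.trans ?_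
    rw [Node22.wg_swap, hτd, Node22.wg_sub_vsc, ← Node22.wg_swap, map_smul]
    rfl

theorem exists_prim (h : NZ y) (V : RZ ℂ K) : ∃ c : J → K, (∀ j, c j ≠ 0) ∧ Prim V (scl c y) :=
  ⟨fun j => ((ln y j).gen V)⁻¹, fun _ => inv_ne_zero (gen_ne _ _),
    prim_scl h fun j => by rw [map_inv₀, v_gen]⟩

theorem ne_of_nz (h : NZ (scl c y)) (j : J) : c j ≠ 0 := by
  obtain ⟨i, hi⟩ := h j
  exact left_ne_zero_of_mul hi

theorem Meet.exists (h : Meet p.V y y') : ∃ c c' : J → K, (∀ j, c j ≠ 0) ∧ (∀ j, c' j ≠ 0) ∧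
    Prim p.V (scl c y) ∧ Prim p.V (scl c' y') ∧
      redP p.toPl (scl c y) = redP p.toPl (scl c' y') := by
  obtain ⟨c, c', h1, h2, h3⟩ := h
  refine ⟨c, c', ne_of_nz h1.nz, ne_of_nz h2.nz, h1, h2, funext fun j => funext fun i => ?_⟩
  exact sub_eq_zero.1 ((Pl.r_sub ((h1 j).1 i) ((h2 j).1 i)).symm.trans
    ((Pl.r_eq_zero (sub_mem ((h1 j).1 i) ((h2 j).1 i))).2 (h3 j i)))

/-- on the support of `dh` the points meet -/
theorem meet_of_dh (h : NZ y) (h' : NZ y') {V : RZ ℂ K} (hV : (dh y y').val V ≠ 1) :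
    Meet V y y' := by
  obtain ⟨c, hc, h1⟩ := exists_prim h V
  obtain ⟨c', hc', h2⟩ := exists_prim h' V
  rw [← dh_scl h h' hc hc', dh_eq] at hV
  have h0 : dl (scl c y) (scl c' y') ≠ 0 := fun e => hV (by rw [e, sz_zero, neg_zero, val_zero])
  rw [val_neg, val_sz h0, Ne, inv_eq_one] at hV
  obtain ⟨d, hd, e⟩ := (Node22.dl_eq_zero (Prim.nz_red (p := plV V) h1)
    (Prim.nz_red (p := plV V) h2)).1
    ((dl_red_eq_zero (p := LP.at V) h1 h2).2 ((nm_dl_le _ _ V).lt_of_ne hV))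
  choose g hg using fun j => surj_plV V (d j)
  have h3 : ∀ j, (plV V).r (g j) = d j := fun j => ((plV V).r_coe _).trans (hg j)
  have h4 : ∀ j, V.v (g j) = 1 := fun j => Pl.r_ne_zero_iff (p := plV V).1 (h3 j ▸ hd j)
  have h5 : ∀ j i, (g j : K) * c' j * y' j i ∈ V.1 := fun j i =>
    mul_assoc (g j : K) _ _ ▸ mul_mem (g j).2 ((h2 j).1 i)
  refine ⟨c, fun j => g j * c' j, h1, fun j => ⟨h5 j, (h2 j).2.imp fun i hi => ?_⟩, fun j i => ?_⟩
  · beta_reduce
    rw [mul_assoc, map_mul, h4, one_mul]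
    exact hi
  · refine (Pl.r_eq_zero (p := plV V) (sub_mem ((h1 j).1 i) (h5 j i))).1 ?_
    rw [Pl.r_sub (p := plV V) ((h1 j).1 i) (h5 j i), mul_assoc, sub_eq_zero]
    refine (congrFun (congrFun e j) i).trans ?_
    rw [scl, ← h3]
    exact (Pl.r_mul (p := plV V) (g j).2 ((h2 j).1 i)).symm

theorem _root_.Crest.Agent.X262.Vb.Cls.meet [Algebra.EssFiniteType ℂ K]
    [Algebra.EssFiniteType ℂ E] {α : Fam B io} (hα : Cls B T α) (h : NZ y) (h' : NZ y')
    (hO : T.On y) (hO' : T.On y') (hM : Meet p.V y y') : B.pb p (α K y) = B.pb p (α K y') := by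
  obtain ⟨c, c', hc, hc', h1, h2, e⟩ := hM.exists
  rw [← hα.scl K y c hc h hO, ← hα.scl K y' c' hc' h' hO']
  exact (hα.nat K E p _ h1 (Node22.on_scl T hO c)).trans
    ((congrArg _ e).trans (hα.nat K E p _ h2 (Node22.on_scl T hO' c')).symm)

theorem _root_.Crest.Agent.X262.Vb.Cls.map [Algebra.EssFiniteType ℂ K]
    [Algebra.EssFiniteType ℂ E] {α : Fam B io} (hα : Cls B T α) (β : K →ₐ[ℂ] E) (h : NZ y)
    (hO : T.On y) : B.pb (LP.hom β) (α K y) = α E (mpt β y) := by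
  rw [hα.nat K E _ y (prim_hom β h) hO, redP_hom]
  rfl

namespace Th.Ax

variable (hB : B.Ax) [Algebra.EssFiniteType ℂ K]
include hB

theorem cT_scl (h : NZ y) (hO : T.On y) (hc : ∀ j, c j ≠ 0) : cT B T (scl c y) = cT B T y := by
  rw [cT, cT, ← hB.cp2_dia (c := fun v : Vr io => c v.1) (fun v => hc v.1)
    (fun v => ln_scl h hc v.1) (eul_le hO)]
  congr 1
  · rw [eul_scl hc]
    refine (Node22.eq_sclS (fun v : Vr io => hc v.1) fun u => ?_)
    rw [mem_eul_iff h, mem_eul_iff h]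
    change wg _ (vsc c u) = 0 ↔ _
    simp only [funext_iff, wg_apply, vsc_apply, Pi.zero_apply]
    refine forall_congr' fun x => ?_
    rw [mul_left_comm, mul_left_comm _ (c x.1), ← mul_sub, mul_eq_zero, or_iff_right (hc _)]
  · exact Node22.eq_sclS (fun v : Vr io => hc v.1) fun u => Node22.jac_scl_eq_zero T hc

theorem dgc_scl (h : NZ y) (h' : NZ y') (hO : T.On y) (hc : ∀ j, c j ≠ 0) (hc' : ∀ j, c' j ≠ 0) :
    dgc B T (scl c y) (scl c' y') = dgc B T y y' := by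
  classical
  rw [dgc, dgc, hB.cT_scl h hO hc, dh_scl h h' hc hc']
  exact congrArg _ (if_congr (dl_scl_eq_zero hc hc') rfl rfl)

variable [Algebra.EssFiniteType ℂ E]

theorem cT_red (hS : Smo T n) (h : Prim p.V y) (hO : T.On y) :
    (cT B T y).map (B.pb p : B.H K →+* B.H E) = cT B T (redP p.toPl y) := by
  rw [cT, hB.cp2_rd (fun v => h.val_ln v.1) (eul_le hO), rd_eul h, rd_ker_jac hS h hO, cT]
  simp only [ln_red h]

/-- the class of the exceptional divisor is a root of `cT` -/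
theorem cT_dh (h : Prim p.V y) (h' : Prim p.V y') (hO : T.On y) (hO' : T.On y')
    (h0 : dl y y' ≠ 0) (h1 : dl (redP p.toPl y) (redP p.toPl y') = 0) :
    (cT B T (redP p.toPl y)).eval (B.pb p (B.c1 (dh y y'))) = 0 := by
  obtain ⟨g, hg⟩ := p.V.exists_v (nm (da y y') p.V (dl y y'))
  have hg0 : g ≠ 0 := RZ.ne_zero_iff.1 (hg ▸ (nm_pos h0).ne')
  have h2 : nm (da y y') p.V (g⁻¹ • dl y y') = 1 := by
    rw [nm_smul, map_inv₀, hg, inv_mul_cancel₀ (nm_pos h0).ne']
  have h3 := (itg_iff (val_da h h')).2 h2.le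
  obtain ⟨t, h4, h5⟩ := exists_dir h h' hO hO' (u := g⁻¹) (by
    rw [map_inv₀, hg, one_lt_inv₀ (nm_pos h0)]
    exact (dl_red_eq_zero h h').1 h1) h3
  have h6 : wg (vec (redP p.toPl y)) t ≠ 0 := by
    rw [h5, Ne, rv_eq_zero (val_da h h') h3, h2]
    exact lt_irrefl _
  have hP := ((Node22.dl_eq_zero h.nz_red h'.nz_red).1 h1).symm
  have h7 : B.pb p (B.c1 (dh y y')) =
      B.c1 (-dst (fun v : Vr io => ln (redP p.toPl y') v.1) (eul (redP p.toPl y')) t) := by
    rw [dst_eul h.nz_red hP h6, h5, ← res_da h h']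
    refine Eq.trans ?_ (congrArg (fun a => B.c1 (-a)) (res_sz p.toPl (val_da h h') h2))
    rw [map_neg, ← hB.pb_c1_res p (by rw [val_sz (smul_ne_zero (inv_ne_zero hg0) h0), h2]),
      sz_smul h0 (inv_ne_zero hg0), map_add, hB.c1_pr, zero_add, dh_eq, map_neg, map_neg]
  have hO1 := on_red T p.lnr (fun j => (h j).1) hO
  obtain ⟨c, hc, e⟩ := hP
  rw [h7, ← hB.cT_scl h.nz_red hO1 hc, ← e]
  refine hB.eval_cp2_line (eul_le (on_red T p.lnr (fun j => (h' j).1) hO')) h4 ?_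
  rwa [e, eul_scl hc, mem_eul_iff h.nz_red]

theorem dgc_red (hS : Smo T n) (h : Prim p.V y) (h' : Prim p.V y') (hO : T.On y) (hO' : T.On y') :
    B.pb p (dgc B T y y') = dgc B T (redP p.toPl y) (redP p.toPl y') := by
  rw [dgc, dgc, map_sub, pb_eval, map_zero, hB.cT_red hS h hO, wdg_eq, wdg_eq]
  congr 1
  by_cases h0 : dl y y' = 0
  · rw [if_pos h0, map_zero, if_pos (by rw [← r_dl h h', h0]; exact funext fun _ => p.r_zero)]
  rw [if_neg h0, pb_eval, hB.cT_red hS h hO]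
  split_ifs with h1
  · exact hB.cT_dh h h' hO hO' h0 h1
  have h2 : nm (da y y') p.V (dl y y') = 1 :=
    (nm_dl_le y y' _).antisymm (not_lt.1 ((dl_red_eq_zero h h').not.1 h1))
  rw [dh_eq, dh_eq, map_neg, map_neg, hB.pb_c1_res p (by rw [val_sz h0, h2]),
    res_sz p.toPl (val_da h h') h2, r_dl h h', res_da h h', map_neg]

theorem cT_map (hS : Smo T n) (α : K →ₐ[ℂ] E) (h : NZ y) (hO : T.On y) :
    (cT B T y).map (B.pb (LP.hom α) : B.H K →+* B.H E) = cT B T (mpt α y) := by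
  rw [hB.cT_red hS (prim_hom α h) hO, redP_hom]
  rfl



omit [Algebra.EssFiniteType ℂ K] [Algebra.EssFiniteType ℂ E] in
/-- **the diagonal class is natural** -/
theorem mcls_dgc (hS : Smo T n) {M : Type} (q q' : M) :
    MCls B T fun _ _ _ (y : M → Pnt io _) => dgc B T (y q) (y q') :=
  ⟨fun _ _ _ _ _ _ hc h hO => hB.dgc_scl (h q) (h q') (hO q) (hc q) (hc q'),
    fun _ _ _ _ _ _ _ _ _ _ h hO => hB.dgc_red hS (h q) (h q') (hO q) (hO q')⟩


end Th.Ax

end Crest.Agent.X262.Hb
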